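import Vale.Agent.P273.H92.Bridge
import Vale.Agent.P273.H728.StrSum

/-!
# P273, LIM: the pieces of a stratum (S8)
-/

noncomputable section

namespace Vale.Agent.P273.H92

open Set MeasureTheory Sum H93 H95 H573 H728

set_option linter.constructorNameAsVariable false in
/-- **(S8)** the field `piece` of `H573.Steps`. -/
theorem pieceSum (F : H503.Form16) (X : Ext) (hF : H183.IsClosedForm H503.Lg14 (8 * 2) F)
    (hX : ExtOf F X) : PieceSum F X := by
  refine pieceSum_of fun p q hp hq σ e => ?_
  rw [str_cells hF hX hp hq σ e]
  symm
  refine Finset.sum_subtype _ (fun c => ?_) _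
  simp only [Finset.mem_filter, Finset.mem_univ, true_and]

end Vale.Agent.P273.H92

end
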