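import Mathlib

/-!
# P273, LIM-V: an alternating map on pairs of vectors does not depend on the order of the pairs
-/

namespace Vale.Agent.P273.H92

variable {M N : Type*} [AddCommGroup M] [Module ℝ M] [AddCommGroup N] [Module ℝ N]

theorem alt_pairs {n : ℕ} (η : AlternatingMap ℝ M N (Fin (n * 2))) (w : Fin n → Bool → M)
    (π : Equiv.Perm (Fin n)) :
    η (fun i => w (π i.divNat) (decide (i.modNat = 1))) =
      η (fun i => w i.divNat (decide (i.modNat = 1))) := by
  let P : Equiv.Perm (Fin (n * 2)) := finProdFinEquiv.permCongr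
    (Equiv.prodCongrLeft fun _ : Fin 2 => π)
  have hs : Equiv.Perm.sign P = 1 := by
    rw [Equiv.Perm.sign_permCongr, Equiv.Perm.sign_prodCongrLeft, Fin.prod_univ_two,
      Int.units_mul_self]
  have h := η.map_perm (fun i => w i.divNat (decide (i.modNat = 1))) P
  rw [hs, one_smul] at h
  rw [← h]
  congr 1
  funext i
  have hi : P i = finProdFinEquiv (π i.divNat, i.modNat) := rfl
  have h2 : finProdFinEquiv.symm (P i) = (π i.divNat, i.modNat) := by
    rw [hi, Equiv.symm_apply_apply]
  have h3 : (P i).divNat = π i.divNat := congrArg Prod.fst h2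
  have h4 : (P i).modNat = i.modNat := congrArg Prod.snd h2
  simp only [Function.comp_apply, h3, h4]

/-- The same with the index of the pair written as `i / 2` and the place as `i % 2`. -/
theorem alt_pairs16 (η : AlternatingMap ℝ M N (Fin 16)) (w : Fin 8 → Bool → M)
    (π : Equiv.Perm (Fin 8)) :
    η (fun i => w (π ⟨i / 2, by omega⟩) (decide ((i : ℕ) % 2 = 1))) =
      η (fun i => w ⟨i / 2, by omega⟩ (decide ((i : ℕ) % 2 = 1))) := by
  have h := alt_pairs (n := 8) η w π
  have e1 : ∀ i : Fin (8 * 2), decide (i.modNat = 1) = decide ((i : ℕ) % 2 = 1) := fun i => by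
    congr 1
    exact propext ⟨fun h => congrArg Fin.val h, fun h => Fin.ext h⟩
  simp only [e1] at h
  exact h

end Vale.Agent.P273.H92
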