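import Vale.Agent.P273.H92.Polar2

/-!
# P273, LIM-V: alternating forms in the frame of the logarithmic polar coordinates
-/

noncomputable section

namespace Vale.Agent.P273.H92

open Set MeasureTheory

section alt

variable {M N J : Type*} [AddCommGroup M] [Module ℝ M] [AddCommGroup N] [Module ℝ N]
  [DecidableEq J]

/-- A linear change of two of the vectors. -/
theorem alt_two (η : AlternatingMap ℝ M N J) (v : J → M) {a b : J} (hab : a ≠ b) (α β γ δ : ℝ)
    (x y : M) :
    η (Function.update (Function.update v a (α • x + β • y)) b (γ • x + δ • y)) =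
      (α * δ - β * γ) • η (Function.update (Function.update v a x) b y) := by
  have e : ∀ s t : M, Function.update (Function.update v a s) b t =
      Function.update (Function.update v b t) a s := fun s t =>
    Function.update_comm hab s t v
  have hxx : ∀ s : M, η (Function.update (Function.update v a s) b s) = 0 := fun s =>
    η.map_eq_zero_of_eq _ (by simp [Function.update_of_ne hab]) hab
  have hsw : η (Function.update (Function.update v a y) b x) =
      -η (Function.update (Function.update v a x) b y) := by
    have h := hxx (x + y)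
    rw [η.map_update_add, e, e, η.map_update_add, η.map_update_add, ← e, ← e, ← e, ← e, hxx, hxx,
      zero_add, add_zero] at h
    rw [eq_neg_iff_add_eq_zero]
    exact h
  rw [η.map_update_add, η.map_update_smul, η.map_update_smul, e, e, η.map_update_add,
    η.map_update_add, η.map_update_smul, η.map_update_smul, η.map_update_smul, η.map_update_smul,
    ← e, ← e, ← e, ← e, hxx, hxx, hsw]
  module

/-- A linear change of several disjoint pairs of vectors. -/
theorem alt_many {G : Type*} [DecidableEq G] (η : AlternatingMap ℝ M N J) (v v' : J → M)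
    (a b : G → J) (ha : Function.Injective a) (hb : Function.Injective b) (hab : ∀ g g', a g ≠ b g')
    (α β γ δ : G → ℝ) (s : Finset G)
    (h1 : ∀ g ∈ s, v' (a g) = α g • v (a g) + β g • v (b g))
    (h2 : ∀ g ∈ s, v' (b g) = γ g • v (a g) + δ g • v (b g))
    (h3 : ∀ j, (∀ g ∈ s, j ≠ a g ∧ j ≠ b g) → v' j = v j) :
    η v' = (∏ g ∈ s, (α g * δ g - β g * γ g)) • η v := by
  induction s using Finset.induction_on generalizing v' with
  | empty =>
    have : v' = v := funext fun j => h3 j (by simp)
    rw [this]
    simp
  | insert g s hg ih =>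
    set w : J → M := Function.update (Function.update v' (a g) (v (a g))) (b g) (v (b g)) with hw
    have hwa : w (a g) = v (a g) := by
      rw [hw, Function.update_of_ne (hab g g), Function.update_self]
    have hwb : w (b g) = v (b g) := by rw [hw, Function.update_self]
    have hwo : ∀ j, j ≠ a g → j ≠ b g → w j = v' j := fun j hja hjb => by
      rw [hw, Function.update_of_ne hjb, Function.update_of_ne hja]
    have hne : ∀ g' ∈ s, g' ≠ g := fun g' hg' h => hg (h ▸ hg')
    have ihw := ih w
      (fun g' hg' => by
        rw [hwo _ (fun h => hne g' hg' (ha h)) (hab _ _), h1 g' (Finset.mem_insert_of_mem hg')])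
      (fun g' hg' => by
        rw [hwo _ (fun h => hab _ _ h.symm) (fun h => hne g' hg' (hb h)),
          h2 g' (Finset.mem_insert_of_mem hg')])
      (fun j hj => by
        by_cases hja : j = a g
        · rw [hja, hwa]
        by_cases hjb : j = b g
        · rw [hjb, hwb]
        rw [hwo j hja hjb]
        refine h3 j fun g' hg' => ?_
        rcases Finset.mem_insert.1 hg' with rfl | h
        · exact ⟨hja, hjb⟩
        · exact hj g' h)
    have hv' : v' = Function.update (Function.update v' (a g) (α g • v (a g) + β g • v (b g))) (b g)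
        (γ g • v (a g) + δ g • v (b g)) := by
      rw [← h1 g (Finset.mem_insert_self _ _), ← h2 g (Finset.mem_insert_self _ _),
        Function.update_eq_self, Function.update_eq_self]
    rw [Finset.prod_insert hg, mul_smul, ← ihw, hv', alt_two η v' (hab g g)]

end alt

/-- Replacing the pairs `e_g, i e_g` by `-z_g e_g, z_g i e_g` (the frame of `u, φ` for
`z = exp (-u + i φ)`) multiplies an alternating form by `∏ (-|z_g|^2)`. -/
theorem alt_polar {M N J G : Type*} [AddCommGroup M] [Module ℂ M] [AddCommGroup N] [Module ℝ N]
    [DecidableEq J] [DecidableEq G] (η : AlternatingMap ℝ M N J) (v v' : J → M)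
    (a b : G → J) (ha : Function.Injective a) (hb : Function.Injective b) (hab : ∀ g g', a g ≠ b g')
    (z : G → ℂ) (s : Finset G) (h0 : ∀ g ∈ s, v (b g) = Complex.I • v (a g))
    (h1 : ∀ g ∈ s, v' (a g) = (-z g) • v (a g))
    (h2 : ∀ g ∈ s, v' (b g) = (z g * Complex.I) • v (a g))
    (h3 : ∀ j, (∀ g ∈ s, j ≠ a g ∧ j ≠ b g) → v' j = v j) :
    η v' = (∏ g ∈ s, (-‖z g‖ ^ 2)) • η v := by
  have h := alt_many η v v' a b ha hb hab (fun g => -(z g).re) (fun g => -(z g).im)
    (fun g => -(z g).im) (fun g => (z g).re) s ?_ ?_ h3
  · rw [h]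
    congr 1
    refine Finset.prod_congr rfl fun g _ => ?_
    rw [← Complex.normSq_eq_norm_sq, Complex.normSq_apply]
    ring
  · intro g hg
    rw [h1 g hg, h0 g hg, ← Complex.coe_smul, ← Complex.coe_smul, smul_smul, ← add_smul]
    congr 1
    apply Complex.ext <;> simp
  · intro g hg
    rw [h2 g hg, h0 g hg, ← Complex.coe_smul, ← Complex.coe_smul, smul_smul, ← add_smul]
    congr 1
    apply Complex.ext <;> simp

/-- The same for a form of top degree on `ℂ^m` in the frame of the densities. -/
theorem dens_polar {m : ℕ} (η : (Fin m → ℂ) [⋀^Fin (m * 2)]→L[ℝ] ℝ) (z : Fin m → ℂ)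
    (P : Fin m → Prop) [DecidablePred P] :
    η (fun a => Pi.single a.divNat (if P a.divNat then
      (if a.modNat = 0 then -z a.divNat else z a.divNat * Complex.I) else
        (if a.modNat = 0 then 1 else Complex.I))) =
      (∏ g : Fin m with P g, (-‖z g‖ ^ 2)) *
        η (fun a => Pi.single a.divNat (if a.modNat = 0 then 1 else Complex.I)) := by
  classical
  let a : Fin m → Fin (m * 2) := fun g => finProdFinEquiv (g, 0)
  let b : Fin m → Fin (m * 2) := fun g => finProdFinEquiv (g, 1)
  have hq : ∀ (g : Fin m) (s : Fin 2), (finProdFinEquiv (g, s)).divNat = g ∧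
      (finProdFinEquiv (g, s)).modNat = s := fun g s => by
    have h := finProdFinEquiv.symm_apply_apply (g, s)
    exact ⟨congrArg Prod.fst h, congrArg Prod.snd h⟩
  have hne : (1 : Fin 2) ≠ 0 := by decide
  have h := alt_polar (M := Fin m → ℂ) (N := ℝ) (η.toAlternatingMap)
    (fun a => Pi.single a.divNat (if a.modNat = 0 then (1 : ℂ) else Complex.I))
    (fun a => Pi.single a.divNat (if P a.divNat then
      (if a.modNat = 0 then -z a.divNat else z a.divNat * Complex.I) else
        (if a.modNat = 0 then 1 else Complex.I)))
    a b (fun g g' h => (Prod.ext_iff.1 (finProdFinEquiv.injective h)).1)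
    (fun g g' h => (Prod.ext_iff.1 (finProdFinEquiv.injective h)).1)
    (fun g g' h => hne (Prod.ext_iff.1 (finProdFinEquiv.injective h)).2.symm) z
    (Finset.univ.filter P) ?_ ?_ ?_ ?_
  · exact h
  · intro g _
    simp only [a, b, (hq g _).1, (hq g _).2, if_neg hne, if_true]
    rw [← Pi.single_smul]
    simp
  · intro g hg
    have hg' : P g := (Finset.mem_filter.1 hg).2
    simp only [a, (hq g _).1, (hq g _).2, if_true, if_pos hg']
    rw [← Pi.single_smul]
    simp
  · intro g hg
    have hg' : P g := (Finset.mem_filter.1 hg).2
    simp only [a, b, (hq g _).1, (hq g _).2, if_neg hne, if_true, if_pos hg']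
    rw [← Pi.single_smul]
    simp
  · intro j hj
    by_cases hP : P j.divNat
    · exfalso
      have h1 := hj j.divNat (Finset.mem_filter.2 ⟨Finset.mem_univ _, hP⟩)
      have h2 : finProdFinEquiv (j.divNat, j.modNat) = j := finProdFinEquiv.apply_symm_apply j
      have h3 : j.modNat = 0 ∨ j.modNat = 1 := by
        generalize j.modNat = s
        fin_cases s <;> simp
      rcases h3 with h3 | h3 <;> rw [h3] at h2
      · exact h1.1 h2.symm
      · exact h1.2 h2.symm
    · simp only [if_neg hP]

end Vale.Agent.P273.H92

end
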