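import Vale.Agent.P273.H92.Cov

/-!
# P273, LIM-V: the logarithmic polar coordinates `z = exp (-u + i φ)`
-/

noncomputable section

namespace Vale.Agent.P273.H92

open Set MeasureTheory

variable {G : Type} [Fintype G] {Y : Type} [NormedAddCommGroup Y] [NormedSpace ℂ Y]
  [FiniteDimensional ℂ Y] [MeasureSpace Y] [BorelSpace Y]
  [(volume : Measure Y).IsAddHaarMeasure]

/-- The coordinate. -/
def lp (p : (G → ℝ) × (G → ℝ) × Y) : (G → ℂ) × Y :=
  (fun g => Complex.exp (-(p.1 g : ℂ) + (p.2.1 g : ℂ) * Complex.I), p.2.2)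

/-- The complex exponential in all coordinates. -/
def ex (q : (G → ℂ) × Y) : (G → ℂ) × Y := (fun g => Complex.exp (-q.1 g), q.2)

/-- Its derivative. -/
def ex' (q : (G → ℂ) × Y) : ((G → ℂ) × Y) →L[ℂ] ((G → ℂ) × Y) :=
  (ContinuousLinearMap.pi fun g =>
    (-Complex.exp (-q.1 g)) • (ContinuousLinearMap.proj g : (G → ℂ) →L[ℂ] ℂ)).prodMap
    (ContinuousLinearMap.id ℂ Y)

omit [FiniteDimensional ℂ Y] [MeasureSpace Y] [BorelSpace Y]
  [(volume : Measure Y).IsAddHaarMeasure] in
theorem hasFDerivAt_ex (q : (G → ℂ) × Y) : HasFDerivAt (ex : (G → ℂ) × Y → (G → ℂ) × Y) (ex' q) q := by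
  have h1 : HasFDerivAt (fun w : G → ℂ => fun g => Complex.exp (-w g))
      (ContinuousLinearMap.pi fun g =>
        (-Complex.exp (-q.1 g)) • (ContinuousLinearMap.proj g : (G → ℂ) →L[ℂ] ℂ)) q.1 := by
    rw [hasFDerivAt_pi]
    intro g
    have h2 : HasFDerivAt (fun w : G → ℂ => -w g)
        (-(ContinuousLinearMap.proj g : (G → ℂ) →L[ℂ] ℂ)) q.1 := (hasFDerivAt_apply g q.1).neg
    refine h2.cexp.congr_fderiv ?_
    ext v
    simp
  exact h1.prodMap q (hasFDerivAt_id q.2)

omit [MeasureSpace Y] [BorelSpace Y] [(volume : Measure Y).IsAddHaarMeasure] in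
theorem det_ex' (q : (G → ℂ) × Y) : LinearMap.det (ex' q : ((G → ℂ) × Y) →ₗ[ℂ] ((G → ℂ) × Y)) =
    ∏ g, (-Complex.exp (-q.1 g)) := by
  have h : (ex' q : ((G → ℂ) × Y) →ₗ[ℂ] ((G → ℂ) × Y)) =
      (LinearMap.pi fun g => ((-Complex.exp (-q.1 g)) • LinearMap.id).comp
        (LinearMap.proj g)).prodMap LinearMap.id := by
    ext <;> simp [ex']
  rw [h, LinearMap.det_prodMap, LinearMap.det_pi, LinearMap.det_id, mul_one]
  refine Finset.prod_congr rfl fun g _ => ?_
  rw [LinearMap.det_smul, LinearMap.det_id]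
  simp

/-- The strip. -/
def strip : Set ((G → ℂ) × Y) := {q | ∀ g, (q.1 g).im ∈ Ioo (-Real.pi) Real.pi}

omit [Fintype G] [NormedAddCommGroup Y] [NormedSpace ℂ Y] [FiniteDimensional ℂ Y] [MeasureSpace Y]
  [BorelSpace Y] [(volume : Measure Y).IsAddHaarMeasure] in
theorem ex_inj : InjOn (ex : (G → ℂ) × Y → (G → ℂ) × Y) strip := by
  rintro ⟨a, b⟩ hq ⟨a', b'⟩ hq' h
  have h1 : ∀ g, Complex.exp (-a g) = Complex.exp (-a' g) := fun g =>
    congrFun (congrArg Prod.fst h) g
  have h2 : b = b' := congrArg Prod.snd h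
  refine Prod.ext (funext fun g => ?_) h2
  have h3 : (a g).im ∈ Ioo (-Real.pi) Real.pi := hq g
  have h4 : (a' g).im ∈ Ioo (-Real.pi) Real.pi := hq' g
  have h5 := Complex.exp_inj_of_neg_pi_lt_of_le_pi (x := -a g) (y := -a' g)
    (by rw [Complex.neg_im]; linarith [h3.2]) (by rw [Complex.neg_im]; linarith [h3.1])
    (by rw [Complex.neg_im]; linarith [h4.2]) (by rw [Complex.neg_im]; linarith [h4.1]) (h1 g)
  exact neg_injective h5

theorem null_im : volume {z : ℂ | z.im = 0} = 0 := by
  have h := Measure.addHaar_submodule (volume : Measure ℂ) (LinearMap.ker Complex.imLm) (by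
    intro h
    have : Complex.I ∈ LinearMap.ker Complex.imLm := by rw [h]; trivial
    simp at this)
  exact h

theorem null_slit : volume {q : (G → ℂ) × Y | ∃ g, (q.1 g).im = 0} = 0 := by
  have h : {q : (G → ℂ) × Y | ∃ g, (q.1 g).im = 0} = ⋃ g, {q : (G → ℂ) × Y | (q.1 g).im = 0} := by
    ext q; simp
  rw [h, measure_iUnion_null_iff]
  intro g
  exact (Measure.quasiMeasurePreserving_fst (μ := (volume : Measure (G → ℂ)))
    (ν := (volume : Measure Y))).preimage_null
    ((Measure.quasiMeasurePreserving_eval (fun _ : G => (volume : Measure ℂ)) g).preimage_null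
      null_im)

/-- The conjugation of all coordinates. -/
def cj : ((G → ℂ) × Y) ≃ᵐ ((G → ℂ) × Y) :=
  (MeasurableEquiv.piCongrRight fun _ : G =>
    (Complex.conjLIE.toHomeomorph.toMeasurableEquiv : ℂ ≃ᵐ ℂ)).prodCongr (MeasurableEquiv.refl Y)

theorem mp_cj : MeasurePreserving (cj : (G → ℂ) × Y → (G → ℂ) × Y) volume volume := by
  have h1 : MeasurePreserving (Complex.conjLIE : ℂ → ℂ) volume volume :=
    Complex.conjLIE.measurePreserving
  have h2 := volume_preserving_pi (fun _ : G => h1)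
  exact h2.prod (MeasurePreserving.id (volume : Measure Y))

/-- `(u, φ, y) ↦ (u + i φ, y)`. -/
def me : ((G → ℝ) × (G → ℝ) × Y) ≃ᵐ ((G → ℂ) × Y) :=
  MeasurableEquiv.prodAssoc.symm.trans
    (((MeasurableEquiv.arrowProdEquivProdArrow ℝ ℝ G).symm.trans
      (MeasurableEquiv.piCongrRight fun _ : G => Complex.measurableEquivRealProd.symm)).prodCongr
        (MeasurableEquiv.refl Y))

theorem mp_me : MeasurePreserving (me : (G → ℝ) × (G → ℝ) × Y → (G → ℂ) × Y) volume volume := by
  have h1 := (volume_measurePreserving_arrowProdEquivProdArrow ℝ ℝ G).symm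
  have h2 := volume_preserving_pi (fun _ : G => Complex.volume_preserving_equiv_real_prod.symm)
  have h3 := (h2.comp h1).prod (MeasurePreserving.id (volume : Measure Y))
  have h4 := (measurePreserving_prodAssoc (volume : Measure (G → ℝ)) (volume : Measure (G → ℝ))
    (volume : Measure Y)).symm
  exact h3.comp h4

omit [FiniteDimensional ℂ Y] [BorelSpace Y] [(volume : Measure Y).IsAddHaarMeasure] in
theorem lp_eq (p : (G → ℝ) × (G → ℝ) × Y) : (lp p : (G → ℂ) × Y) = cj (ex (me p)) := by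
  refine Prod.ext (funext fun g => ?_) rfl
  change Complex.exp (-(p.1 g : ℂ) + (p.2.1 g : ℂ) * Complex.I) =
    (starRingEnd ℂ) (Complex.exp (-(⟨p.1 g, p.2.1 g⟩ : ℂ)))
  rw [← Complex.exp_conj]
  congr 1
  apply Complex.ext <;> simp

/-- **The logarithmic polar coordinates**, for an arbitrary function. -/
theorem polar {F : Type} [NormedAddCommGroup F] [NormedSpace ℝ F] {S : Set ((G → ℂ) × Y)}
    (hS : MeasurableSet S) (h : (G → ℂ) × Y → F) :
    (IntegrableOn h S ↔ IntegrableOn
      (fun p : (G → ℝ) × (G → ℝ) × Y => (∏ g, Real.exp (-2 * p.1 g)) • h (lp p))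
      {p | (∀ g, p.2.1 g ∈ Ioo (-Real.pi) Real.pi) ∧ lp p ∈ S}) ∧
    ∫ q in S, h q = ∫ p in {p : (G → ℝ) × (G → ℝ) × Y |
      (∀ g, p.2.1 g ∈ Ioo (-Real.pi) Real.pi) ∧ lp p ∈ S},
      (∏ g, Real.exp (-2 * p.1 g)) • h (lp p) := by
  have : FiniteDimensional ℝ Y := FiniteDimensional.complexToReal Y
  have : (volume : Measure ((G → ℂ) × Y)).IsAddHaarMeasure :=
    Measure.prod.instIsAddHaarMeasure (volume : Measure (G → ℂ)) (volume : Measure Y)
  set T : Set ((G → ℂ) × Y) := {q | q ∈ strip ∧ cj (ex q) ∈ S} with hT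
  have hexm : Measurable (ex : (G → ℂ) × Y → (G → ℂ) × Y) := by
    refine Measurable.prodMk (measurable_pi_lambda _ fun g => ?_) measurable_snd
    exact Complex.measurable_exp.comp ((measurable_pi_apply g).comp measurable_fst).neg
  have hTm : MeasurableSet T := by
    refine MeasurableSet.inter ?_ ((cj.measurable.comp hexm) hS)
    have : (strip : Set ((G → ℂ) × Y)) = ⋂ g, {q | (q.1 g).im ∈ Ioo (-Real.pi) Real.pi} := by
      ext q; simp [strip]
    rw [this]
    exact MeasurableSet.iInter fun g => (Complex.measurable_im.comp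
      ((measurable_pi_apply g).comp measurable_fst)) measurableSet_Ioo
  have hpre : {p : (G → ℝ) × (G → ℝ) × Y |
      (∀ g, p.2.1 g ∈ Ioo (-Real.pi) Real.pi) ∧ lp p ∈ S} = me ⁻¹' T := by
    ext p
    rw [mem_preimage, hT, mem_ofPred_eq, mem_ofPred_eq, lp_eq]
    rfl
  have hder : ∀ q ∈ T, HasFDerivWithinAt (ex : (G → ℂ) × Y → (G → ℂ) × Y)
      ((ex' q).restrictScalars ℝ) T q := fun q _ =>
    ((hasFDerivAt_ex q).restrictScalars ℝ).hasFDerivWithinAt
  have hdet : ∀ q : (G → ℂ) × Y, |((ex' q).restrictScalars ℝ).det| =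
      ∏ g, Real.exp (-2 * (q.1 g).re) := fun q => by
    rw [det_real, det_ex', abs_of_nonneg (sq_nonneg _), norm_prod, ← Finset.prod_pow]
    refine Finset.prod_congr rfl fun g _ => ?_
    rw [norm_neg, Complex.norm_exp, ← Real.exp_nat_mul]
    congr 1
    rw [Complex.neg_re]
    push_cast
    ring
  have hinj : InjOn (ex : (G → ℂ) × Y → (G → ℂ) × Y) T := ex_inj.mono fun q hq => hq.1
  have hae : (ex '' T : Set ((G → ℂ) × Y)) =ᵐ[volume] cj ⁻¹' S := by
    refine (ae_le_set.2 ?_).antisymm (ae_le_set.2 ?_)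
    · have : (ex '' T : Set ((G → ℂ) × Y)) \ cj ⁻¹' S = ∅ := by
        rw [sdiff_eq_empty]
        rintro _ ⟨q, hq, rfl⟩
        exact hq.2
      rw [this, measure_empty]
    · refine measure_mono_null ?_ (null_slit (G := G) (Y := Y))
      rintro ⟨z, y⟩ ⟨h1, h2⟩
      by_contra h3
      simp only [mem_ofPred_eq, not_exists] at h3
      refine h2 ⟨(fun g => -Complex.log (z g), y), ⟨?_, ?_⟩, ?_⟩
      · intro g
        change (-Complex.log (z g)).im ∈ _
        rw [Complex.neg_im, Complex.log_im]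
        have h4 := Complex.neg_pi_lt_arg (z g)
        have h5 := Complex.arg_le_pi (z g)
        have h6 : Complex.arg (z g) ≠ Real.pi := fun h => h3 g (Complex.arg_eq_pi_iff.1 h).2
        have h7 := lt_of_le_of_ne h5 h6
        exact ⟨by linarith, by linarith⟩
      · have h8 : (ex (fun g => -Complex.log (z g), y) : (G → ℂ) × Y) = (z, y) := by
          refine Prod.ext (funext fun g => ?_) rfl
          change Complex.exp (- -Complex.log (z g)) = z g
          rw [neg_neg, Complex.exp_log]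
          rintro h0
          exact h3 g (by rw [h0]; simp)
        rw [h8]
        exact h1
      · refine Prod.ext (funext fun g => ?_) rfl
        change Complex.exp (- -Complex.log (z g)) = z g
        rw [neg_neg, Complex.exp_log]
        rintro h0
        exact h3 g (by rw [h0]; simp)
  have e1 : ∀ q : (G → ℂ) × Y, |((ex' q).restrictScalars ℝ).det| • h (cj (ex q)) =
      (∏ g, Real.exp (-2 * (q.1 g).re)) • h (cj (ex q)) := fun q => by rw [hdet]
  have e2 : ∀ p : (G → ℝ) × (G → ℝ) × Y, (∏ g, Real.exp (-2 * p.1 g)) • h (lp p) =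
      (fun q : (G → ℂ) × Y => (∏ g, Real.exp (-2 * (q.1 g).re)) • h (cj (ex q))) (me p) := fun p => by
    rw [lp_eq]
    rfl
  constructor
  · rw [← mp_cj.integrableOn_comp_preimage cj.measurableEmbedding,
      ← integrableOn_congr_set_ae hae,
      integrableOn_image_iff_integrableOn_abs_det_fderiv_smul volume hTm hder hinj]
    simp only [Function.comp_apply, e1]
    rw [← mp_me.integrableOn_comp_preimage me.measurableEmbedding, hpre]
    simp only [e2]
    rfl
  · rw [← mp_cj.setIntegral_preimage_emb cj.measurableEmbedding,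
      ← setIntegral_congr_set hae,
      integral_image_eq_integral_abs_det_fderiv_smul volume hTm hder hinj]
    simp only [e1]
    rw [← mp_me.setIntegral_preimage_emb me.measurableEmbedding, hpre]
    simp only [e2]

end Vale.Agent.P273.H92

end
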