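import Vale.Agent.P273.H92.Num

/-!
# P273, LIM-V: the piece of a cell is the integral over the cell
-/

noncomputable section

namespace Vale.Agent.P273.H92

open Set MeasureTheory Sum H93 H95 H573 H728 H732

variable {p q : ℕ} (hp : p ≤ q) (hq : q ≤ 6) (σ : Bool → Equiv.Perm (Fin 7)) (e : Bool → Bool)
  (c : H728.Cell)

/-- The embedding of the cell in the region in the numbering `num`. -/
theorem scl_iot (ζ : Fin 8 → ℂ) : scl _ (iot hp hq σ e c ζ) =
    embS (rg (Tc hp hq σ e c)) (gB (Tc hp hq σ e c)) (jE (num hp hq σ e c) ζ) := by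
  have h : iot hp hq σ e c ζ = ((ContinuousLinearMap.pi fun g =>
    if h : g ∉ gB (Tc hp hq σ e c) then
      (ContinuousLinearMap.proj (⟨g, h⟩ : Sv (rg (Tc hp hq σ e c)) (gB (Tc hp hq σ e c))) :
        (Sv (rg (Tc hp hq σ e c)) (gB (Tc hp hq σ e c)) → ℂ) →L[ℝ] ℂ) else 0).prodMap
      (ContinuousLinearMap.id ℝ ((rg (Tc hp hq σ e c)).Cm → ℂ))) (jE (num hp hq σ e c) ζ) := by
    refine Prod.ext (funext fun g => ?_) (funext fun x => rfl)
    rw [iot_fst]
    change _ = (if h : g ∉ gB (Tc hp hq σ e c) then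
      (ContinuousLinearMap.proj (⟨g, h⟩ : Sv (rg (Tc hp hq σ e c)) (gB (Tc hp hq σ e c))) :
        (Sv (rg (Tc hp hq σ e c)) (gB (Tc hp hq σ e c)) → ℂ) →L[ℝ] ℂ) else 0)
        (jE (num hp hq σ e c) ζ).1
    by_cases hg : g ∉ gB (Tc hp hq σ e c)
    · rw [dif_pos hg, num_inl hp hq σ e c ⟨g, hg⟩]
      rfl
    · rw [dif_neg hg]
      have hg' := not_not.1 hg
      obtain ⟨k, g⟩ := g
      obtain ⟨r, hr, h⟩ := (mem_gB hp hq σ e c).1 hg'
      have h1 := gv_B (p := p) (q := q) e c ζ hr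
      unfold gv at h1
      simp only at h ⊢
      rw [h, h1]
      rfl
  rw [h]
  rfl

theorem val_eq (X : Ext) (ζ : Fin 8 → ℂ) :
    val X hp hq σ e c ζ = pint (num hp hq σ e c) X (Sc σ c) ζ := by
  unfold val pint
  rw [FW_apply, scl_iot]
  congr 1
  funext a
  exact scl_iot hp hq σ e c _

/-- The far marks of a cell among the core marks of its region. -/
def farC (x : (rg (Tc hp hq σ e c)).Cm) : Bool := Sc σ c x.1

theorem Sx_farC : Sx (rg (Tc hp hq σ e c)) (farC hp hq σ e c) = Sc σ c := by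
  funext x
  unfold Sx farC
  by_cases h : ((rg (Tc hp hq σ e c)).pl x).isRight = true
  · rw [dif_pos h]
  · rw [dif_neg h]
    symm
    unfold Sc
    rw [decide_eq_false_iff_not]
    rintro ⟨h1, h2⟩
    exact h ((cm_iff hp hq σ e c).2 ⟨h1, (lo_none c).2 ⟨true, h2⟩⟩)

/-! ### The domain -/

/-- The null set where the two descriptions of the domain differ. -/
def Nul : Set (Fin 8 → ℂ) :=
  {ζ | ∃ j, ζ j = 0} ∪ {ζ | ∃ j, ∃ k : Fin 3, ‖ζ j - ctr k‖ = 1 / 32} ∪ {ζ | ∃ j, ‖ζ j‖ = 11} ∪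
    {ζ | ζ 6 = ζ 7}

theorem null_diag : volume {ζ : Fin 8 → ℂ | ζ 6 = ζ 7} = 0 := by
  have h := Measure.addHaar_submodule (volume : Measure (Fin 8 → ℂ))
    (LinearMap.ker ((LinearMap.proj 6 : (Fin 8 → ℂ) →ₗ[ℝ] ℂ) - LinearMap.proj 7)) (by
      intro h
      have h1 : (Pi.single 6 1 : Fin 8 → ℂ) ∈
          LinearMap.ker ((LinearMap.proj 6 : (Fin 8 → ℂ) →ₗ[ℝ] ℂ) - LinearMap.proj 7) := by
        rw [h]; trivial
      rw [LinearMap.mem_ker] at h1
      simp at h1)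
  refine measure_mono_null (fun ζ hζ => ?_) h
  have hζ' : ζ 6 = ζ 7 := hζ
  change ζ ∈ LinearMap.ker ((LinearMap.proj 6 : (Fin 8 → ℂ) →ₗ[ℝ] ℂ) - LinearMap.proj 7)
  rw [LinearMap.mem_ker]
  change ζ 6 - ζ 7 = 0
  rw [hζ', sub_self]

theorem null_Nul : volume Nul = 0 := by
  unfold Nul
  refine measure_union_null (measure_union_null (measure_union_null ?_ ?_) ?_) null_diag
  · have h : {ζ : Fin 8 → ℂ | ∃ j, ζ j = 0} = ⋃ j, {ζ : Fin 8 → ℂ | ζ j ∈ ({0} : Set ℂ)} := by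
      ext ζ; simp
    rw [h, measure_iUnion_null_iff]
    exact fun j => TD.null_coord (measure_singleton 0) j
  · have h : {ζ : Fin 8 → ℂ | ∃ j, ∃ k : Fin 3, ‖ζ j - ctr k‖ = 1 / 32} =
        ⋃ j, ⋃ k : Fin 3, {ζ : Fin 8 → ℂ | ζ j ∈ {z : ℂ | ‖z - ctr k‖ = 1 / 32}} := by
      ext ζ; simp
    rw [h, measure_iUnion_null_iff]
    intro j
    rw [measure_iUnion_null_iff]
    exact fun k => TD.null_coord (TD.null_sphere _ _) j
  · have h : {ζ : Fin 8 → ℂ | ∃ j, ‖ζ j‖ = 11} =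
        ⋃ j, {ζ : Fin 8 → ℂ | ζ j ∈ {z : ℂ | ‖z - 0‖ = 11}} := by
      ext ζ; simp
    rw [h, measure_iUnion_null_iff]
    exact fun j => TD.null_coord (TD.null_sphere _ _) j

theorem sc_eq {x : Mk} (hx : σ x.2 x.1 = 6) {z : Bool} (h : c.loc x.2 = inl z) : Sc σ c x = z := by
  unfold Sc
  rw [h, hx]
  cases z <;> simp

theorem D0_R : D0.R = 11 := rfl

theorem D0_rho : D0.ρ = 1 / 32 := rfl

theorem D0_ct (k : Fin 3) : D0.ct k = ctr k := rfl

theorem dom_sub {z : Bool} : D0.dom (inl z) ⊆ zone0 z := by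
  cases z
  · rintro x ⟨h1, h2⟩
    exact ⟨by rw [D0_R] at h2; exact h2.le, fun k => (h1 k).le⟩
  · rintro x ⟨h1, h2⟩
    refine ⟨h1, ?_⟩
    rw [D0_R] at h2
    rw [one_div]
    exact h2

theorem sub_dom {z : Bool} {x : ℂ} (h : x ∈ zone0 z) (h1 : ∀ k : Fin 3, ‖x - ctr k‖ ≠ 1 / 32)
    (h2 : ‖x‖ ≠ 11) : x ∈ D0.dom (inl z) := by
  cases z
  · exact ⟨fun k => lt_of_le_of_ne (h.2 k) (h1 k).symm, lt_of_le_of_ne h.1 h2⟩
  · refine ⟨h.1, ?_⟩
    have h3 := h.2
    rw [D0_R, ← one_div]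
    exact h3

theorem om_sub : D0.Om (sm e) c ⊆ jE (num hp hq σ e c) ⁻¹'
    pdom (rg (Tc hp hq σ e c)) (gB (Tc hp hq σ e c)) (farC hp hq σ e c) := by
  intro ζ h
  have hcf : ∀ b, ζ (cf b) ∈ D0.dom (c.loc b) := by
    intro b
    cases b
    · exact h.2.2.1
    · exact h.2.1
  refine ⟨fun g => ?_, fun x => ?_⟩
  · change ‖ζ (num hp hq σ e c (inl g))‖ < 1
    have hn := num_inl hp hq σ e c g
    rcases gi_sv hp hq σ e c g with ⟨t, ht, h1, h2, h3⟩ | ⟨b, h1, h2, h3⟩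
    · rw [h3] at hn
      rw [← Option.some.inj hn]
      exact (h.1 _ (by rw [ofNat8 ht]; exact ht)).2
    · rw [h2] at hn
      rw [← Option.some.inj hn]
      have h4 := hcf b
      rw [(lo_some c).1 h1] at h4
      exact h4.2
  · change ζ (cf x.1.2) ∈ zone0 (Sc σ c x.1)
    have hx := (cm_iff hp hq σ e c).1 x.2
    obtain ⟨z, hz⟩ := (lo_none c).1 hx.2
    have h4 := hcf x.1.2
    rw [hz] at h4
    rw [sc_eq σ c hx.1 hz]
    exact dom_sub h4

theorem sub_om {ζ : Fin 8 → ℂ} (h : ζ ∈ jE (num hp hq σ e c) ⁻¹'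
    pdom (rg (Tc hp hq σ e c)) (gB (Tc hp hq σ e c)) (farC hp hq σ e c)) (hN : ζ ∉ Nul) :
    ζ ∈ D0.Om (sm e) c := by
  have h0 : ∀ j, ζ j ≠ 0 := fun j hj => hN (Or.inl (Or.inl (Or.inl ⟨j, hj⟩)))
  have h32 : ∀ j, ∀ k : Fin 3, ‖ζ j - ctr k‖ ≠ 1 / 32 := fun j k hj =>
    hN (Or.inl (Or.inl (Or.inr ⟨j, k, hj⟩)))
  have h11 : ∀ j, ‖ζ j‖ ≠ 11 := fun j hj => hN (Or.inl (Or.inr ⟨j, hj⟩))
  have h67 : ζ 6 ≠ ζ 7 := fun hj => hN (Or.inr hj)
  obtain ⟨hg, hx⟩ := h
  have hg' : ∀ g, ‖ζ (num hp hq σ e c (inl g))‖ < 1 := hg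
  have hx' : ∀ x : (rg (Tc hp hq σ e c)).Cm, ζ (cf x.1.2) ∈ zone0 (Sc σ c x.1) := hx
  have hcf : ∀ b, ζ (cf b) ∈ D0.dom (c.loc b) := by
    intro b
    rcases hb : c.loc b with z | k
    · have h6 : ((rg (Tc hp hq σ e c)).pl (((σ b).symm 6, b) : Mk)).isRight = true :=
        (cm_iff hp hq σ e c).2 ⟨by simp, (lo_none c).2 ⟨z, hb⟩⟩
      have h1 := hx' ⟨((σ b).symm 6, b), h6⟩
      rw [sc_eq σ c (x := ((σ b).symm 6, b)) (by simp) hb] at h1
      exact sub_dom h1 (h32 _) (h11 _)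
    · obtain ⟨y, hy⟩ := (num hp hq σ e c).surjective (cf b)
      rcases y with g | x
      · refine ⟨h0 _, ?_⟩
        rw [← hy]
        exact hg' g
      · exfalso
        have h1 := (cm_iff hp hq σ e c).1 x.2
        rw [num_inr] at hy
        rw [cf_inj hy, (lo_some c).2 hb] at h1
        cases h1.2
  refine ⟨fun j hj => ⟨h0 j, ?_⟩, hcf true, hcf false, fun hs hAB => ?_⟩
  · obtain ⟨y, hy⟩ := (num hp hq σ e c).surjective j
    rcases y with g | x
    · rw [← hy]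
      exact hg' g
    · exfalso
      rw [num_inr] at hy
      have := cf_ge x.1.2
      rw [hy] at this
      omega
  · have h6 : ζ 6 ∈ D0.dom (c.loc true) := hcf true
    have h7 : ζ 7 ∈ D0.dom (c.loc false) := hcf false
    unfold TD.xA TD.xB at hAB
    by_cases hS : c.Same (sm e)
    · obtain ⟨k, hk⟩ := Sum.isRight_iff.1 hS.2.2
      have hk' : c.loc false = inr k := hS.2.1.symm.trans hk
      rw [hk] at h6
      rw [hk'] at h7
      rw [hS.2.1] at hAB
      have hinj := D0.place_inj hAB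
      rcases ho : c.ord with _ | _
      · rw [ho, if_pos ⟨hS, rfl⟩, if_neg (by simp)] at hinj
        have h8 : ζ 7 * (ζ 6 - 1) = 0 := by linear_combination hinj
        rcases mul_eq_zero.1 h8 with h9 | h9
        · exact h0 7 h9
        · have h10 : ζ 6 = 1 := sub_eq_zero.1 h9
          have h11 := h6.2
          rw [h10, norm_one] at h11
          exact lt_irrefl _ h11
      · rw [ho, if_neg (by simp), if_pos ⟨hS, rfl⟩] at hinj
        have h8 : ζ 6 * (ζ 7 - 1) = 0 := by linear_combination -hinj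
        rcases mul_eq_zero.1 h8 with h9 | h9
        · exact h0 6 h9
        · have h10 : ζ 7 = 1 := sub_eq_zero.1 h9
          have h11 := h7.2
          rw [h10, norm_one] at h11
          exact lt_irrefl _ h11
    · rw [if_neg (fun h => hS h.1), if_neg (fun h => hS h.1)] at hAB
      have h8 := D0.place_mem h6
      have h9 := D0.place_mem h7
      rw [hAB] at h8
      have h10 := D0.reg_disj h8 h9
      rw [h10] at hAB
      exact h67 (D0.place_inj hAB)

theorem om_ae : (jE (num hp hq σ e c) ⁻¹'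
    pdom (rg (Tc hp hq σ e c)) (gB (Tc hp hq σ e c)) (farC hp hq σ e c) : Set (Fin 8 → ℂ))
      =ᵐ[volume] D0.Om (sm e) c := by
  refine (ae_le_set.2 ?_).antisymm (ae_le_set.2 ?_)
  · refine measure_mono_null ?_ null_Nul
    intro ζ hζ
    by_contra h
    exact hζ.2 (sub_om hp hq σ e c hζ.1 h)
  · rw [sdiff_eq_empty.2 (om_sub hp hq σ e c), measure_empty]

/-- **(B1)** the piece of a cell. -/
theorem piece_cell (X : Ext) : piece (rg (Tc hp hq σ e c)) X (farC hp hq σ e c)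
    (gB (Tc hp hq σ e c)) = ∫ ζ in D0.Om (sm e) c, val X hp hq σ e c ζ := by
  rw [piece_eq (num hp hq σ e c), Sx_farC, setIntegral_congr_set (om_ae hp hq σ e c)]
  simp only [val_eq]

/-! ### The sum over the cells -/

/-- The sets of far marks. -/
theorem sum_far {M : Type*} [AddCommMonoid M] (c : H93.Cell)
    (g : ((rg (enc c.1 c.2.2 hp hq σ e c.2.1)).Cm → Bool) → M) :
    ∑ far, g far = ∑ fa : Bool → Bool with FaOk c fa,
      g fun x => fa x.1.2 := by
  have hcm : ∀ x : Mk, ((rg (enc c.1 c.2.2 hp hq σ e c.2.1)).pl x).isRight = true ↔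
      σ x.2 x.1 = 6 ∧ c.2.1 x.2 = none := by
    intro x
    change (pl0 p q e c.2.1 (σ x.2 x.1) x.2).isRight = true ↔ _
    by_cases hx : (σ x.2 x.1).1 < 6
    · rw [pl0_lt hx]
      simp only [isRight_inl, Bool.false_eq_true, false_iff]
      rintro ⟨h, -⟩
      rw [h] at hx
      exact absurd hx (by decide)
    · have h6 : σ x.2 x.1 = 6 := Fin.ext (by change (σ x.2 x.1).1 = 6; omega)
      rcases h : c.2.1 x.2 with _ | k
      · rw [pl0_none hx h]
        simp [h6]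
      · rw [pl0_some hx h]
        simp
  symm
  refine Finset.sum_bij' (fun fa _ => fun x => fa x.1.2)
    (fun far _ => fun b => if h : c.2.1 b = none then
      far ⟨((σ b).symm 6, b), (hcm _).2 ⟨by simp, h⟩⟩ else false) ?_ ?_ ?_ ?_ ?_
  · intro fa _
    exact Finset.mem_univ _
  · intro far _
    rw [Finset.mem_filter]
    refine ⟨Finset.mem_univ _, fun b hb => ?_⟩
    by_contra h
    beta_reduce at hb
    rw [dif_neg h] at hb
    cases hb
  · intro fa hfa
    rw [Finset.mem_filter] at hfa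
    funext b
    by_cases h : c.2.1 b = none
    · rw [dif_pos h]
    · rw [dif_neg h]
      have := fun h' => h (hfa.2 b h')
      simpa using this
  · intro far _
    funext x
    have hx := (hcm x.1).1 x.2
    beta_reduce
    rw [dif_pos hx.2]
    congr 1
    apply Subtype.ext
    refine Prod.ext ?_ rfl
    change (σ x.1.2).symm 6 = x.1.1
    rw [← hx.1]
    simp
  · intro fa _
    rfl

theorem piece_congr (X : Ext) {T T' : RB} (h : T = T') (F : Mk → Bool) :
    piece (rg T) X (fun x => F x.1) (gB T) = piece (rg T') X (fun x => F x.1) (gB T') := by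
  subst h; rfl

theorem Tc_mkC {c : H93.Cell} (hN : NfC e c) (fa : Bool → Bool) :
    Tc hp hq σ e (mkC e c fa) = enc c.1 c.2.2 hp hq σ e c.2.1 := by
  unfold Tc
  rw [mkC_oo hN]
  simp only [mkC_lo, mkC_bit]

set_option linter.constructorNameAsVariable false in
/-- **(B2)** the pieces of a stratum are the cells. -/
theorem sum_pieces (X : Ext) :
    ∑ c : H93.Cell with H93.Nf e c.2.1 c.2.2,
      ∑ far : (rg (enc c.1 c.2.2 hp hq σ e c.2.1)).Cm → Bool,
        piece (rg (enc c.1 c.2.2 hp hq σ e c.2.1)) X far (gB (enc c.1 c.2.2 hp hq σ e c.2.1)) =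
      ∑ c : {c : H728.Cell // c.Ok (sm e)}, ∫ ζ in D0.Om (sm e) c.1, val X hp hq σ e c.1 ζ := by
  refine Eq.trans ?_ (sum_cells e fun c => ∫ ζ in D0.Om (sm e) c, val X hp hq σ e c ζ).symm
  have hf : (Finset.univ.filter fun c : H93.Cell => H93.Nf e c.2.1 c.2.2) =
      Finset.univ.filter fun c : H93.Cell => NfC e c := rfl
  rw [← hf]
  refine Finset.sum_congr rfl ?_
  intro c hc
  have hN : NfC e c := by
    simp only [Finset.mem_filter] at hc
    exact hc.2
  rw [sum_far hp hq σ e c]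
  refine Finset.sum_congr rfl fun fa hfa => ?_
  have hfa' : FaOk c fa := (Finset.mem_filter.1 hfa).2
  rw [← piece_cell hp hq σ e (mkC e c fa) X]
  have hT := Tc_mkC hp hq σ e hN fa
  have h1 : farC hp hq σ e (mkC e c fa) = fun x => (Sc σ (mkC e c fa)) x.1 := rfl
  rw [h1, piece_congr X hT]
  refine congrArg (fun far => piece (rg (enc c.1 c.2.2 hp hq σ e c.2.1)) X far
    (gB (enc c.1 c.2.2 hp hq σ e c.2.1))) (funext fun x => ?_)
  have hx : σ x.1.2 x.1.1 = 6 ∧ c.2.1 x.1.2 = none := by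
    have h2 := x.2
    change (pl0 p q e c.2.1 (σ x.1.2 x.1.1) x.1.2).isRight = true at h2
    by_cases hx : (σ x.1.2 x.1.1).1 < 6
    · rw [pl0_lt hx] at h2
      simp at h2
    · have h6 : σ x.1.2 x.1.1 = 6 := Fin.ext (by change (σ x.1.2 x.1.1).1 = 6; omega)
      rcases h : c.2.1 x.1.2 with _ | k
      · exact ⟨h6, rfl⟩
      · rw [pl0_some hx h] at h2
        simp at h2
  have h3 : (mkC e c fa).loc x.1.2 = inl (fa x.1.2) := by
    change (c.2.1 x.1.2).elim (inl (fa x.1.2)) inr = _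
    rw [hx.2]
    rfl
  exact (sc_eq σ (mkC e c fa) hx.1 h3).symm

/-- **(S8)** from the decomposition of a stratum into cells. -/
theorem pieceSum_of {F : H503.Form16} {X : Ext}
    (h : ∀ (p q : ℕ) (hp : p ≤ q) (hq : q ≤ 6) (σ : Bool → Equiv.Perm (Fin 7)) (e : Bool → Bool),
      ∑ c : {c : H728.Cell // c.Ok (sm e)}, ∫ ζ in D0.Om (sm e) c.1, val X hp hq σ e c.1 ζ =
        H503.str F (thE e p q σ)) : PieceSum F X := by
  intro p q hp hq σ e
  rw [sum_pieces, h]

end Vale.Agent.P273.H92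

end
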