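import Vale.Agent.P273.H728.Iota
import Vale.Agent.P273.H93.Last

/-!
# P273, LIM-V: the cells of 728 are the cells of 93 with a set of far marks
-/

noncomputable section

namespace Vale.Agent.P273.H92

open Set Sum H183 H837 H93 H95 H503 H732 H728

/-- The cell of 728 with given order bits, necks of the core marks, order, and far marks. -/
def mkC (e : Bool → Bool) (c : H93.Cell) (fa : Bool → Bool) : H728.Cell where
  bit := c.1
  loc b := (c.2.1 b).elim (inl (fa b)) inr
  ord := if c.2.1 true = c.2.1 false ∧ c.2.1 true ≠ none ∧ e true = e false then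
    xor c.2.2 (e true) else true

/-- The far marks are on the cores. -/
def FaOk (c : H93.Cell) (fa : Bool → Bool) : Prop := ∀ b, fa b = true → c.2.1 b = none

instance (c : H93.Cell) (fa : Bool → Bool) : Decidable (FaOk c fa) := by
  unfold FaOk; infer_instance

/-- The normal cells. -/
def NfC (e : Bool → Bool) (c : H93.Cell) : Prop := Nf e c.2.1 c.2.2

instance (e : Bool → Bool) (c : H93.Cell) : Decidable (NfC e c) := by
  unfold NfC; infer_instance

variable {e : Bool → Bool} {c : H93.Cell} {fa : Bool → Bool}

theorem mkC_bit : (mkC e c fa).bit = c.1 := rfl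

theorem mkC_lo : (mkC e c fa).lo = c.2.1 := by
  funext b
  change Zone.nk ((c.2.1 b).elim (inl (fa b)) inr) = c.2.1 b
  rcases c.2.1 b with _ | k <;> rfl

theorem mkC_same : (mkC e c fa).Same (sm e) ↔
    (c.2.1 true = c.2.1 false ∧ c.2.1 true ≠ none ∧ e true = e false) := by
  change (sm e = true ∧ ((c.2.1 true).elim (inl (fa true)) inr : H728.Zone) =
    (c.2.1 false).elim (inl (fa false)) inr ∧
    ((c.2.1 true).elim (inl (fa true)) inr : H728.Zone).isRight = true) ↔ _
  unfold sm
  rcases c.2.1 true with _ | k <;> rcases c.2.1 false with _ | l <;>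
    simp [and_comm]

theorem mkC_oo (hN : NfC e c) : (mkC e c fa).oo e = c.2.2 := by
  unfold Cell.oo
  by_cases h : (mkC e c fa).Same (sm e)
  · rw [if_pos h]
    have h' := mkC_same.1 h
    change xor (if _ then _ else _) _ = _
    rw [if_pos h', Bool.xor_assoc, Bool.xor_self, Bool.xor_false]
  · rw [if_neg h]
    rcases hN with h1 | h1
    · exact h1.symm
    · exact absurd (mkC_same.2 h1) h

theorem mkC_ok : (mkC e c fa).Ok (sm e) := by
  unfold Cell.Ok
  by_cases h : c.2.1 true = c.2.1 false ∧ c.2.1 true ≠ none ∧ e true = e false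
  · exact Or.inr (mkC_same.2 h)
  · left
    change (if _ then _ else _) = _
    rw [if_neg h]

/-- The cell of 93. -/
def to93 (e : Bool → Bool) (c : H728.Cell) : H93.Cell := (c.bit, c.lo, c.oo e)

theorem to93_nf (c : H728.Cell) : NfC e (to93 e c) := by
  unfold NfC Nf to93 Cell.oo
  by_cases h : c.Same (sm e)
  · right
    obtain ⟨h1, h2, h3⟩ := h
    refine ⟨?_, ?_, ?_⟩
    · change Zone.nk _ = Zone.nk _
      rw [h2]
    · change Zone.nk _ ≠ none
      obtain ⟨k, hk⟩ := Sum.isRight_iff.1 h3
      rw [hk]
      simp [Zone.nk]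
    · simpa [sm] using h1
  · left
    rw [if_neg h]

/-- The far marks of a cell. -/
def far (c : H728.Cell) (b : Bool) : Bool := (c.loc b).elim id fun _ => false

theorem far_ok (c : H728.Cell) : FaOk (to93 e c) (far c) := by
  intro b hb
  change Zone.nk (c.loc b) = none
  unfold far at hb
  rcases h : c.loc b with z | k
  · rfl
  · rw [h] at hb
    simp at hb

theorem mkC_to93 {c : H728.Cell} (hc : c.Ok (sm e)) : mkC e (to93 e c) (far c) = c := by
  have h1 : (mkC e (to93 e c) (far c)).loc = c.loc := by
    funext b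
    change (Zone.nk (c.loc b)).elim (inl (far c b)) inr = c.loc b
    unfold far
    rcases c.loc b with z | k <;> rfl
  have h2 : (mkC e (to93 e c) (far c)).ord = c.ord := by
    have h3 : (mkC e (to93 e c) (far c)).Same (sm e) ↔ c.Same (sm e) := by
      unfold Cell.Same
      rw [h1]
    have h4 := h3.symm.trans mkC_same |>.symm
    change (if (to93 e c).2.1 true = (to93 e c).2.1 false ∧ (to93 e c).2.1 true ≠ none ∧
      e true = e false then xor (c.oo e) (e true) else true) = c.ord
    by_cases h : c.Same (sm e)
    · rw [if_pos (h4.2 h)]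
      unfold Cell.oo
      rw [if_pos h, Bool.xor_assoc, Bool.xor_self, Bool.xor_false]
    · rw [if_neg (fun h' => h (h4.1 h'))]
      rcases hc with h5 | h5
      · exact h5.symm
      · exact absurd h5 h
  have h3 : (mkC e (to93 e c) (far c)).bit = c.bit := rfl
  cases hh : mkC e (to93 e c) (far c)
  cases c
  rw [hh] at h1 h2 h3
  simp only at h1 h2 h3
  subst h1 h2 h3
  rfl

theorem to93_mkC (hN : NfC e c) : to93 e (mkC e c fa) = c := by
  unfold to93
  rw [mkC_lo, mkC_oo hN]
  rfl

theorem far_mkC (h : FaOk c fa) : far (mkC e c fa) = fa := by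
  funext b
  change ((c.2.1 b).elim (inl (fa b)) inr : H728.Zone).elim id (fun _ => false) = fa b
  rcases hb : c.2.1 b with _ | k
  · rfl
  · have : fa b ≠ true := fun h' => by
      have := h b h'
      rw [hb] at this
      cases this
    simpa using this

set_option linter.constructorNameAsVariable false in
/-- **The sum over the cells of 728** as a sum over the cells of 93 and the sets of far marks. -/
theorem sum_cells {M : Type*} [AddCommMonoid M] (e : Bool → Bool) (g : H728.Cell → M) :
    ∑ c : {c : H728.Cell // c.Ok (sm e)}, g c.1 =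
      ∑ c : H93.Cell with NfC e c, ∑ fa : Bool → Bool with FaOk c fa, g (mkC e c fa) := by
  rw [Finset.sum_sigma']
  refine Finset.sum_bij' (fun c _ => ⟨to93 e c.1, far c.1⟩) (fun x _ => ⟨mkC e x.1 x.2, mkC_ok⟩)
    ?_ ?_ ?_ ?_ ?_
  · intro c _
    simp only [Finset.mem_sigma, Finset.mem_filter, Finset.mem_univ, true_and]
    exact ⟨to93_nf c.1, far_ok c.1⟩
  · intro x _
    simp only [Finset.mem_univ]
  · intro c _
    exact Subtype.ext (mkC_to93 c.2)
  · rintro ⟨c, fa⟩ hx
    simp only [Finset.mem_sigma, Finset.mem_filter, Finset.mem_univ, true_and] at hx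
    simp only [to93_mkC hx.1, far_mkC hx.2]
  · intro c _
    rw [mkC_to93 c.2]

end Vale.Agent.P273.H92

end
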