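import Vale.Agent.P273.H92.Zone

/-!
# P273, LIM-V: the cells of the moduli space of a theta graph

Six coordinates of the clusters, `b t = z t` or `1 / z t` with `|z t| < 1`, and the positions of the
two core marks (coordinates `6`, `7`), on the same core or not.
-/

noncomputable section

namespace Vale.Agent.P273.H92

open Set MeasureTheory Sum

/-- The places of the two core marks: the zones, or (`inr (k, s)`, both on the same core and in the
same disc) nested in the disc `k`, and the first (`s = true`) or second (`s = false`) is next to the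
core. -/
abbrev CC := (Zone × Zone) ⊕ (Fin 3 × Bool)

/-- A cell: `b t = z t` or `1 / z t` for the six clusters, and the places of the core marks. -/
abbrev Cell := (Fin 6 → Bool) × CC

namespace Dat

variable (D : Dat)

/-- The places that occur. -/
def ok (same : Prop) : CC → Prop
  | inl (z, z') => ¬ (same ∧ ∃ k, z = inl k ∧ z' = inl k)
  | inr _ => same

/-- The positions of the core marks. -/
def pos2 : CC → ℂ → ℂ → ℂ × ℂ
  | inl (z, z'), x, y => (D.pos z x, D.pos z' y)
  | inr (k, true), x, y => (D.ct k + D.lam * x, D.ct k + D.lam * (x * y))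
  | inr (k, false), x, y => (D.ct k + D.lam * (x * y), D.ct k + D.lam * y)

/-- The domain of the coordinates of the core marks. -/
def om2 (same : Prop) : CC → ℂ → ℂ → Prop
  | inl (z, z'), x, y => x ∈ D.om z ∧ y ∈ D.om z' ∧ (same → D.pos z x ≠ D.pos z' y)
  | inr (_, true), x, y => x ≠ 0 ∧ y ≠ 0 ∧ ‖x‖ < D.r ∧ ‖y‖ < 1
  | inr (_, false), x, y => x ≠ 0 ∧ y ≠ 0 ∧ ‖x‖ < 1 ∧ ‖y‖ < D.r

/-- The Jacobian matrix of the positions: derivative of the first position. -/
def d21 : CC → ℂ → ℂ → ℂ × ℂ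
  | inl (z, _), x, _ => (D.dps z x, 0)
  | inr (_, true), _, _ => (D.lam, 0)
  | inr (_, false), x, y => (D.lam * y, D.lam * x)

/-- The Jacobian matrix of the positions: derivative of the second position. -/
def d22 : CC → ℂ → ℂ → ℂ × ℂ
  | inl (_, z'), _, y => (0, D.dps z' y)
  | inr (_, true), x, y => (D.lam * y, D.lam * x)
  | inr (_, false), _, _ => (0, D.lam)

/-- The Jacobian determinant. -/
def jac2 : CC → ℂ → ℂ → ℂ
  | inl (z, z'), x, y => D.dps z x * D.dps z' y
  | inr (_, true), x, _ => D.lam * (D.lam * x)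
  | inr (_, false), _, y => D.lam * y * D.lam

/-- The position of the second mark in a cluster. -/
def kb (s : Bool) (z : ℂ) : ℂ := if s then z else z⁻¹

/-- The derivative. -/
def dkb (s : Bool) (z : ℂ) : ℂ := if s then 1 else -(z ^ 2)⁻¹

/-- The number of the cluster. -/
def c6 (j : Fin 8) : Fin 6 := Fin.ofNat 6 j

/-- The domain of the coordinates of a cell. -/
def Om (same : Prop) (i : Cell) : Set (Fin 8 → ℂ) :=
  {z | ok same i.2 ∧ (∀ j, j ≠ 6 → j ≠ 7 → z j ≠ 0 ∧ ‖z j‖ < 1) ∧ D.om2 same i.2 (z 6) (z 7)}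

/-- The map of a cell, in the coordinates `x` of the cores. -/
def kx (i : Cell) (z : Fin 8 → ℂ) (j : Fin 8) : ℂ :=
  if j = 6 then (D.pos2 i.2 (z 6) (z 7)).1 else
    if j = 7 then (D.pos2 i.2 (z 6) (z 7)).2 else kb (i.1 (c6 j)) (z j)

/-- The derivative of the map of a cell. -/
def kx' (i : Cell) (z : Fin 8 → ℂ) : (Fin 8 → ℂ) →L[ℂ] (Fin 8 → ℂ) :=
  ContinuousLinearMap.pi fun j =>
    if j = 6 then (D.d21 i.2 (z 6) (z 7)).1 • ContinuousLinearMap.proj 6 +
        (D.d21 i.2 (z 6) (z 7)).2 • ContinuousLinearMap.proj 7 else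
      if j = 7 then (D.d22 i.2 (z 6) (z 7)).1 • ContinuousLinearMap.proj 6 +
        (D.d22 i.2 (z 6) (z 7)).2 • ContinuousLinearMap.proj 7 else
      dkb (i.1 (c6 j)) (z j) • ContinuousLinearMap.proj j

/-- The image, in the coordinates `x`. -/
def Dx (same : Prop) : Set (Fin 8 → ℂ) :=
  {b | (∀ j, j ≠ 6 → j ≠ 7 → b j ≠ 0 ∧ b j ≠ 1) ∧ (∀ k, b 6 ≠ D.ct k ∧ b 7 ≠ D.ct k) ∧
    (same → b 6 ≠ b 7)}

theorem hasDerivAt_kb (s : Bool) {z : ℂ} (hz : z ≠ 0) : HasDerivAt (kb s) (dkb s z) z := by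
  cases s
  · have : kb false = fun z => z⁻¹ := by funext z; simp [kb]
    rw [this]
    simpa [dkb] using hasDerivAt_inv hz
  · have : kb true = fun z => z := by funext z; simp [kb]
    rw [this]
    simpa [dkb] using hasDerivAt_id' z

theorem hasFDerivAt_pos2 (same : Prop) (c : CC) (z : Fin 8 → ℂ) (h : D.om2 same c (z 6) (z 7)) :
    HasFDerivAt (fun z : Fin 8 → ℂ => (D.pos2 c (z 6) (z 7)).1)
      ((D.d21 c (z 6) (z 7)).1 • ContinuousLinearMap.proj 6 +
        (D.d21 c (z 6) (z 7)).2 • ContinuousLinearMap.proj 7 : (Fin 8 → ℂ) →L[ℂ] ℂ) z ∧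
    HasFDerivAt (fun z : Fin 8 → ℂ => (D.pos2 c (z 6) (z 7)).2)
      ((D.d22 c (z 6) (z 7)).1 • ContinuousLinearMap.proj 6 +
        (D.d22 c (z 6) (z 7)).2 • ContinuousLinearMap.proj 7 : (Fin 8 → ℂ) →L[ℂ] ℂ) z := by
  have p6 : HasFDerivAt (fun z : Fin 8 → ℂ => z 6)
      (ContinuousLinearMap.proj 6 : (Fin 8 → ℂ) →L[ℂ] ℂ) z := hasFDerivAt_apply 6 z
  have p7 : HasFDerivAt (fun z : Fin 8 → ℂ => z 7)
      (ContinuousLinearMap.proj 7 : (Fin 8 → ℂ) →L[ℂ] ℂ) z := hasFDerivAt_apply 7 z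
  rcases c with ⟨a, b⟩ | ⟨k, _ | _⟩
  · constructor
    · have := (D.hasDerivAt_pos a h.1).comp_hasFDerivAt z p6
      refine this.congr_fderiv ?_
      ext v
      simp [d21]
    · have := (D.hasDerivAt_pos b h.2.1).comp_hasFDerivAt z p7
      refine this.congr_fderiv ?_
      ext v
      simp [d22]
  · constructor
    · have := ((p6.mul p7).const_mul (D.lam : ℂ)).const_add (D.ct k)
      refine this.congr_fderiv ?_
      ext v
      simp [d21]
      ring
    · have := (p7.const_mul (D.lam : ℂ)).const_add (D.ct k)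
      refine this.congr_fderiv ?_
      ext v
      simp [d22]
  · constructor
    · have := (p6.const_mul (D.lam : ℂ)).const_add (D.ct k)
      refine this.congr_fderiv ?_
      ext v
      simp [d21]
    · have := ((p6.mul p7).const_mul (D.lam : ℂ)).const_add (D.ct k)
      refine this.congr_fderiv ?_
      ext v
      simp [d22]
      ring

theorem hasFDerivAt_kx (same : Prop) (i : Cell) (z : Fin 8 → ℂ) (hz : z ∈ D.Om same i) :
    HasFDerivAt (D.kx i) (D.kx' i z) z := by
  rw [hasFDerivAt_pi']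
  intro j
  have hp := D.hasFDerivAt_pos2 same i.2 z hz.2.2
  by_cases h6 : j = 6
  · subst h6
    refine hp.1.congr_fderiv ?_
    ext v
    simp [kx']
  by_cases h7 : j = 7
  · subst h7
    refine hp.2.congr_fderiv ?_
    ext v
    simp [kx']
  · have h1 := (hasDerivAt_kb (i.1 (c6 j)) (hz.2.1 j h6 h7).1).comp_hasFDerivAt z
      (hasFDerivAt_apply j z : HasFDerivAt (fun z : Fin 8 → ℂ => z j)
      (ContinuousLinearMap.proj j : (Fin 8 → ℂ) →L[ℂ] ℂ) z)
    have h2 : (fun x => D.kx i x j) = (kb (i.1 (c6 j)) ∘ fun z : Fin 8 → ℂ => z j) := by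
      funext x
      simp [kx, h6, h7]
    rw [h2]
    refine h1.congr_fderiv ?_
    ext v
    simp [kx', h6, h7]

end Dat

end Vale.Agent.P273.H92

end
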