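import Vale.Agent.P273.H92.Cells

/-!
# P273, LIM-V: the cells cover the moduli space
-/

noncomputable section

namespace Vale.Agent.P273.H92

open Set MeasureTheory Sum

theorem null_eval (j : Fin 8) {S : Set ℂ} (hS : volume S = 0) :
    volume {b : Fin 8 → ℂ | b j ∈ S} = 0 :=
  (Measure.quasiMeasurePreserving_eval (fun _ : Fin 8 => (volume : Measure ℂ)) j).preimage_null hS

theorem null_circle (c : ℂ) {r : ℝ} (hr : r ≠ 0) : volume {z : ℂ | ‖z - c‖ = r} = 0 := by
  have : {z : ℂ | ‖z - c‖ = r} = Metric.sphere c r := by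
    ext z; simp
  rw [this]
  exact Measure.addHaar_sphere_of_ne_zero volume c hr

theorem null_pair (c : ℂ) : volume {b : Fin 8 → ℂ | ‖b 6 - c‖ = ‖b 7 - c‖ ∧ b 6 ≠ c} = 0 := by
  have hp := (volume_preserving_piFinSuccAbove (fun _ : Fin 8 => ℂ) 7)
  have hm : MeasurableSet {b : Fin 8 → ℂ | ‖b 6 - c‖ = ‖b 7 - c‖ ∧ b 6 ≠ c} := by
    refine (measurableSet_eq_fun ?_ ?_).inter (measurableSet_eq_fun ?_ ?_).compl <;> fun_prop
  set e := MeasurableEquiv.piFinSuccAbove (fun _ : Fin 8 => ℂ) 7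
  set S : Set (ℂ × (Fin 7 → ℂ)) := {p | ‖p.2 6 - c‖ = ‖p.1 - c‖ ∧ p.2 6 ≠ c}
  have hS : MeasurableSet S := by
    refine (measurableSet_eq_fun ?_ ?_).inter (measurableSet_eq_fun ?_ ?_).compl <;> fun_prop
  have h1 : {b : Fin 8 → ℂ | ‖b 6 - c‖ = ‖b 7 - c‖ ∧ b 6 ≠ c} = e ⁻¹' S := by
    ext b
    rfl
  rw [h1, hp.measure_preimage hS.nullMeasurableSet]
  rw [Measure.volume_eq_prod, Measure.prod_apply_symm hS]
  refine (lintegral_congr fun y => ?_).trans lintegral_zero
  by_cases hy : y 6 = c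
  · have : (fun x : ℂ => (x, y)) ⁻¹' S = ∅ := by
      ext x
      simp [S, hy]
    rw [this, measure_empty]
  · refine measure_mono_null (fun x hx => ?_) (null_circle c (r := ‖y 6 - c‖)
      (norm_ne_zero_iff.2 (sub_ne_zero.2 hy)))
    exact hx.1.symm

namespace Dat

variable (D : Dat)

/-! ### The determinant -/

theorem tri (c : CC) (x y : ℂ) : (D.d21 c x y).2 = 0 ∨ (D.d22 c x y).1 = 0 := by
  rcases c with ⟨a, b⟩ | ⟨k, _ | _⟩
  · exact Or.inl rfl
  · exact Or.inr rfl
  · exact Or.inl rfl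

theorem jac2_eq (c : CC) (x y : ℂ) : D.jac2 c x y = (D.d21 c x y).1 * (D.d22 c x y).2 := by
  rcases c with ⟨a, b⟩ | ⟨k, _ | _⟩ <;> rfl

theorem det_kx' (i : Cell) (z : Fin 8 → ℂ) :
    LinearMap.det (D.kx' i z : (Fin 8 → ℂ) →ₗ[ℂ] (Fin 8 → ℂ)) =
      (∏ t : Fin 6, dkb (i.1 t) (z (Fin.castLE (by omega) t))) * D.jac2 i.2 (z 6) (z 7) := by
  rw [← LinearMap.det_toMatrix']
  have hM : ∀ a b, LinearMap.toMatrix' (D.kx' i z : (Fin 8 → ℂ) →ₗ[ℂ] (Fin 8 → ℂ)) a b =
      D.kx' i z (Pi.single b 1) a := fun a b => by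
    rw [LinearMap.toMatrix'_apply]
    rfl
  have hd : ∀ a : Fin 8, a ≠ 6 → a ≠ 7 → ∀ b, D.kx' i z (Pi.single b 1) a =
      if a = b then dkb (i.1 (c6 a)) (z a) else 0 := by
    intro a h6 h7 b
    by_cases hab : a = b
    · subst hab
      simp [kx', h6, h7]
    · simp [kx', h6, h7, hab]
  have h6 : ∀ b, D.kx' i z (Pi.single b 1) 6 = if b = 6 then (D.d21 i.2 (z 6) (z 7)).1 else
      if b = 7 then (D.d21 i.2 (z 6) (z 7)).2 else 0 := by
    intro b
    by_cases hb : b = 6
    · subst hb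
      simp [kx']
    · by_cases hb' : b = 7
      · subst hb'
        simp [kx']
      · simp [kx', hb, hb', Ne.symm hb, Ne.symm hb']
  have h7 : ∀ b, D.kx' i z (Pi.single b 1) 7 = if b = 6 then (D.d22 i.2 (z 6) (z 7)).1 else
      if b = 7 then (D.d22 i.2 (z 6) (z 7)).2 else 0 := by
    intro b
    by_cases hb : b = 6
    · subst hb
      simp [kx']
    · by_cases hb' : b = 7
      · subst hb'
        simp [kx']
      · simp [kx', hb, hb', Ne.symm hb, Ne.symm hb']
  have hprod : ∏ a : Fin 8, D.kx' i z (Pi.single a 1) a =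
      (∏ t : Fin 6, dkb (i.1 t) (z (Fin.castLE (by omega) t))) *
        ((D.d21 i.2 (z 6) (z 7)).1 * (D.d22 i.2 (z 6) (z 7)).2) := by
    rw [Fin.prod_univ_castSucc, Fin.prod_univ_castSucc, mul_assoc]
    have e6 : ((Fin.last 6).castSucc : Fin 8) = 6 := rfl
    have e7 : (Fin.last 7 : Fin 8) = 7 := rfl
    rw [e6, e7, h6 6, h7 7, if_pos rfl, if_neg (by decide), if_pos rfl]
    congr 1
    refine Finset.prod_congr rfl fun t _ => ?_
    have ha : (t.castSucc.castSucc : Fin 8) ≠ 6 := by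
      intro h
      have := congrArg Fin.val h
      have ht := t.2
      simp at this
      omega
    have hb : (t.castSucc.castSucc : Fin 8) ≠ 7 := by
      intro h
      have := congrArg Fin.val h
      have ht := t.2
      simp at this
      omega
    rw [hd _ ha hb, if_pos rfl]
    have hc : c6 (t.castSucc.castSucc : Fin 8) = t := by
      apply Fin.ext
      have ht := t.2
      simp [c6, Fin.ofNat, Nat.mod_eq_of_lt ht]
    rw [hc]
    rfl
  have h67 : (6 : Fin 8) < 7 := by decide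
  have hlt : ∀ a : Fin 8, a ≠ 6 → a ≠ 7 → a < 6 := by decide
  rcases D.tri i.2 (z 6) (z 7) with hq | hq
  · rw [Matrix.det_of_isLowerTriangular]
    · simp only [hM]
      rw [hprod, D.jac2_eq]
    · intro a b hab
      have hab' : a < b := hab
      rw [hM]
      by_cases ha6 : a = 6
      · subst ha6
        rw [h6, if_neg hab'.ne']
        split_ifs
        · exact hq
        · rfl
      by_cases ha7 : a = 7
      · subst ha7
        exact absurd hab' (by omega)
      · rw [hd a ha6 ha7, if_neg hab'.ne]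
  · rw [Matrix.det_of_isUpperTriangular]
    · simp only [hM]
      rw [hprod, D.jac2_eq]
    · intro a b hab
      have hab' : b < a := hab
      rw [hM]
      by_cases ha6 : a = 6
      · subst ha6
        rw [h6, if_neg hab'.ne, if_neg (hab'.trans h67).ne]
      by_cases ha7 : a = 7
      · subst ha7
        rw [h7]
        split_ifs with hb6 hb7
        · exact hq
        · exact absurd hb7 hab'.ne
        · rfl
      · rw [hd a ha6 ha7, if_neg hab'.ne']

end Dat

end Vale.Agent.P273.H92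

end
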