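import Mathlib

/-!
# P273, LIM-V: finite covers by holomorphic charts and integrals
-/

noncomputable section

namespace Vale.Agent.P273.H92

open Set MeasureTheory

/-- A finite family of injective holomorphic charts with values in `D` and disjoint images which
cover `D` up to a null set. -/
structure Cov {E ι : Type*} [NormedAddCommGroup E] [NormedSpace ℂ E] [MeasurableSpace E]
    (μ : Measure E) (Ω : ι → Set E) (κ : ι → E → E) (κ' : ι → E → E →L[ℂ] E) (D : Set E) :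
    Prop where
  meas : ∀ i, MeasurableSet (Ω i)
  der : ∀ i, ∀ x ∈ Ω i, HasFDerivAt (κ i) (κ' i x) x
  inj : ∀ i, InjOn (κ i) (Ω i)
  disj : ∀ i j, i ≠ j → ∀ x ∈ Ω i, ∀ y ∈ Ω j, κ i x ≠ κ j y
  sub : ∀ i, ∀ x ∈ Ω i, κ i x ∈ D
  null : μ {x ∈ D | ∀ i, ∀ y ∈ Ω i, κ i y ≠ x} = 0

theorem det_real {E : Type*} [NormedAddCommGroup E] [NormedSpace ℂ E] [FiniteDimensional ℂ E]
    (A : E →L[ℂ] E) :
    (A.restrictScalars ℝ).det = ‖(LinearMap.det (A : E →ₗ[ℂ] E))‖ ^ 2 := by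
  have h : ((A.restrictScalars ℝ : E →L[ℝ] E) : E →ₗ[ℝ] E) = (A : E →ₗ[ℂ] E).restrictScalars ℝ := rfl
  rw [ContinuousLinearMap.det, h, LinearMap.det_restrictScalars, Algebra.norm_complex_apply,
    Complex.normSq_eq_norm_sq]

namespace Cov

variable {E ι : Type*} [NormedAddCommGroup E] [NormedSpace ℂ E]
  [MeasurableSpace E] {μ : Measure E}
  {Ω : ι → Set E} {κ : ι → E → E} {κ' : ι → E → E →L[ℂ] E} {D : Set E}

theorem real_der (h : Cov μ Ω κ κ' D) (i : ι) (x : E) (hx : x ∈ Ω i) :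
    HasFDerivWithinAt (κ i) ((κ' i x).restrictScalars ℝ) (Ω i) x :=
  ((h.der i x hx).restrictScalars ℝ).hasFDerivWithinAt

variable [FiniteDimensional ℂ E] [BorelSpace E] [μ.IsAddHaarMeasure]

theorem integral [Fintype ι] (h : Cov μ Ω κ κ' D) (f : E → ℝ)
    (hf : ∀ i, IntegrableOn (fun x => ‖LinearMap.det (κ' i x : E →ₗ[ℂ] E)‖ ^ 2 * f (κ i x)) (Ω i) μ) :
    IntegrableOn f D μ ∧
      ∑ i, ∫ x in Ω i, ‖LinearMap.det (κ' i x : E →ₗ[ℂ] E)‖ ^ 2 * f (κ i x) ∂μ = ∫ x in D, f x ∂μ := by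
  have : FiniteDimensional ℝ E := FiniteDimensional.complexToReal E
  have hdet : ∀ i x, |((κ' i x).restrictScalars ℝ).det| • f (κ i x) =
      ‖LinearMap.det (κ' i x : E →ₗ[ℂ] E)‖ ^ 2 * f (κ i x) := fun i x => by
    rw [det_real, abs_of_nonneg (sq_nonneg _), smul_eq_mul]
  have hf' : ∀ i, IntegrableOn f (κ i '' Ω i) μ := fun i => by
    rw [integrableOn_image_iff_integrableOn_abs_det_fderiv_smul μ (h.meas i)
      (fun x hx => h.real_der i x hx) (h.inj i)]
    simp only [hdet]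
    exact hf i
  have hI : ∀ i, ∫ x in Ω i, ‖LinearMap.det (κ' i x : E →ₗ[ℂ] E)‖ ^ 2 * f (κ i x) ∂μ =
      ∫ x in κ i '' Ω i, f x ∂μ := fun i => by
    rw [integral_image_eq_integral_abs_det_fderiv_smul μ (h.meas i)
      (fun x hx => h.real_der i x hx) (h.inj i)]
    simp only [hdet]
  have hm : ∀ i, MeasurableSet (κ i '' Ω i) := fun i =>
    measurable_image_of_fderivWithin (h.meas i) (fun x hx => h.real_der i x hx) (h.inj i)
  have hU : (⋃ i, κ i '' Ω i) =ᵐ[μ] D := by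
    refine (ae_le_set.2 ?_).antisymm (ae_le_set.2 ?_)
    · have : (⋃ i, κ i '' Ω i) \ D = ∅ := by
        rw [sdiff_eq_empty]
        rintro _ ⟨_, ⟨i, rfl⟩, x, hx, rfl⟩
        exact h.sub i x hx
      rw [this, measure_empty]
    · refine measure_mono_null ?_ h.null
      intro x hx
      exact ⟨hx.1, fun i y hy hyx => hx.2 (mem_iUnion.2 ⟨i, y, hy, hyx⟩)⟩
  have hd : Pairwise (Function.onFun Disjoint fun i => κ i '' Ω i) := by
    intro i j hij
    refine Set.disjoint_left.2 ?_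
    rintro _ ⟨x, hx, rfl⟩ ⟨y, hy, hxy⟩
    exact h.disj i j hij x hx y hy hxy.symm
  have hint : IntegrableOn f (⋃ i, κ i '' Ω i) μ := integrableOn_finite_iUnion.2 hf'
  refine ⟨hint.congr_set_ae hU.symm, ?_⟩
  rw [← setIntegral_congr_set hU, integral_iUnion_fintype hm hd hf']
  exact Finset.sum_congr rfl fun i _ => hI i

/-- Composition with an injective holomorphic map. -/
theorem comp (h : Cov μ Ω κ κ' D) {D' : Set E} (M : E → E) (M' : E → E →L[ℂ] E)
    (hM : ∀ x ∈ D, HasFDerivAt M (M' x) x) (hi : InjOn M D) (hD : ∀ x ∈ D, M x ∈ D')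
    (h0 : μ {y ∈ D' | ∀ x ∈ D, M x ≠ y} = 0) :
    Cov μ Ω (fun i x => M (κ i x)) (fun i x => (M' (κ i x)).comp (κ' i x)) D' where
  meas := h.meas
  der i x hx := (hM _ (h.sub i x hx)).comp x (h.der i x hx)
  inj i x hx y hy hxy := h.inj i hx hy (hi (h.sub i x hx) (h.sub i y hy) hxy)
  disj i j hij x hx y hy hxy :=
    h.disj i j hij x hx y hy (hi (h.sub i x hx) (h.sub j y hy) hxy)
  sub i x hx := hD _ (h.sub i x hx)
  null := by
    have : FiniteDimensional ℝ E := FiniteDimensional.complexToReal E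
    have h1 : μ (M '' {x ∈ D | ∀ i, ∀ y ∈ Ω i, κ i y ≠ x}) = 0 := by
      refine addHaar_image_eq_zero_of_differentiableOn_of_addHaar_eq_zero μ (fun x hx => ?_) h.null
      exact ((hM x hx.1).restrictScalars ℝ).differentiableAt.differentiableWithinAt
    refine measure_mono_null ?_ (measure_union_null h0 h1)
    rintro y ⟨hy, hy'⟩
    by_cases hx : ∃ x ∈ D, M x = y
    · obtain ⟨x, hx, rfl⟩ := hx
      refine Or.inr ⟨x, ⟨hx, fun i z hz hzx => hy' i z hz (congrArg M hzx)⟩, rfl⟩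
    · push Not at hx
      exact Or.inl ⟨hy, hx⟩

end Cov

end Vale.Agent.P273.H92

end
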