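import Vale.Agent.P273.H92.PieceEq
import Vale.Agent.P273.H728.PosI

/-!
# P273, LIM-V: the numbering of the surviving coordinates of a cell
-/

noncomputable section

namespace Vale.Agent.P273.H92

open Set MeasureTheory Sum H93 H95 H573 H728

variable {p q : ℕ} (hp : p ≤ q) (hq : q ≤ 6) (σ : Bool → Equiv.Perm (Fin 7)) (e : Bool → Bool)
  (c : H728.Cell)

/-- The core mark number `i` of a group. -/
theorem cb_spec {z : Bool} {k : Fin 3} {i : ℕ} (hi : i < nc e c.lo z k) :
    c.lo (cb e c z k i) = some k ∧ e (cb e c z k i) = z ∧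
      ic e c.lo (c.oo e) (cb e c z k i) = i := by
  by_cases h1 : c.lo true = some k ∧ e true = z ∧ ic e c.lo (c.oo e) true = i
  · have : cb e c z k i = true := by simpa [cb] using h1
    rw [this]
    exact h1
  · have h2 : cb e c z k i = false := by simpa [cb] using h1
    rw [h2]
    by_cases h3 : c.lo false = some k ∧ e false = z
    · refine ⟨h3.1, h3.2, ?_⟩
      by_cases h4 : c.lo true = some k ∧ e true = z
      · have h5 := ic_lt (e := e) (o := c.oo e) h4.1
        have h6 := ic_lt (e := e) (o := c.oo e) h3.1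
        have h7 := ic_ne (e := e) (loc := c.lo) (o := c.oo e) (b := true)
          (h3.1.trans h4.1.symm) (h3.2.trans h4.2.symm)
        have h8 : ic e c.lo (c.oo e) true ≠ i := fun h => h1 ⟨h4.1, h4.2, h⟩
        rw [h4.2] at h5
        rw [h3.2] at h6
        have h9 : nc e c.lo z k = 2 := by
          unfold nc
          rw [if_pos h4, if_pos h3]
        simp only [Bool.not_true] at h7
        omega
      · have h6 := ic_lt (e := e) (o := c.oo e) h3.1
        rw [h3.2] at h6
        have h9 : nc e c.lo z k = 1 := by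
          unfold nc
          rw [if_neg h4, if_pos h3]
        omega
    · exfalso
      unfold nc at hi
      rw [if_neg h3, add_zero] at hi
      split_ifs at hi with h4
      · have h5 := ic_lt (e := e) (o := c.oo e) h4.1
        rw [h4.2] at h5
        have h9 : nc e c.lo z k = 1 := by
          unfold nc
          rw [if_neg h3, if_pos h4]
        exact h1 ⟨h4.1, h4.2, by omega⟩
      · omega

theorem cf_inj {b b' : Bool} (h : cf b = cf b') : b = b' := by
  revert h; cases b <;> cases b' <;> simp [cf]

theorem cf_ge (b : Bool) : 6 ≤ (cf b).1 := by cases b <;> simp [cf]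

theorem ofNat8 {n : ℕ} (h : n < 6) : (Fin.ofNat 8 n).1 = n := by
  change n % 8 = n
  omega

/-- The places of the gaps which are not in `B`. -/
theorem gi_cases {k : Fin 3} {g : ℕ}
    (hg : g < nc e c.lo false k + 2 * len p q k + nc e c.lo true k + 1) (hp : p ≤ q) (hq : q ≤ 6) :
    (∃ r ≤ len p q k, g = nc e c.lo false k + 2 * r ∧ gi p q e c k g = none) ∨
    (∃ t < 6, ch p q t = k ∧ g = nc e c.lo false k + 2 * (t - off p q k) + 1 ∧
      gi p q e c k g = some (Fin.ofNat 8 t)) ∨
    ∃ b, c.lo b = some k ∧ gi p q e c k g = some (cf b) ∧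
      g = if e b then nc e c.lo false k + 2 * len p q k + ic e c.lo (c.oo e) b + 1 else
        ic e c.lo (c.oo e) b := by
  by_cases h1 : g < nc e c.lo false k
  · right; right
    obtain ⟨h2, h3, h4⟩ := cb_spec e c h1
    refine ⟨cb e c false k g, h2, ?_, ?_⟩
    · rw [gi, if_pos h1]
    · rw [h3, h4]; simp
  by_cases h2 : g ≤ nc e c.lo false k + 2 * len p q k
  · by_cases h3 : (g - nc e c.lo false k) % 2 = 0
    · left
      refine ⟨(g - nc e c.lo false k) / 2, by omega, by omega, ?_⟩
      rw [gi, if_neg h1, if_pos h2, if_pos h3]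
    · right; left
      have h4 := off_add_len hp hq k
      have h5 : (g - nc e c.lo false k - 1) / 2 < len p q k := by omega
      refine ⟨off p q k + (g - nc e c.lo false k - 1) / 2, by omega, ?_, by omega, ?_⟩
      · exact (ch_iff hp hq (by omega) k).2 ⟨by omega, by omega⟩
      · rw [gi, if_neg h1, if_pos h2, if_neg h3]
  · right; right
    have h3 : g - nc e c.lo false k - 2 * len p q k - 1 < nc e c.lo true k := by omega
    obtain ⟨h4, h5, h6⟩ := cb_spec e c h3
    refine ⟨_, h4, ?_, ?_⟩
    · rw [gi, if_neg h1, if_neg h2]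
    · rw [h5, h6]
      simp only [if_true]
      omega

theorem mem_gB {k : Fin 3} {g : Fin ((rg (Tc hp hq σ e c)).n k + 1)} :
    (⟨k, g⟩ : (rg (Tc hp hq σ e c)).Gap) ∈ gB (Tc hp hq σ e c) ↔
      ∃ r ≤ len p q k, g.1 = nc e c.lo false k + 2 * r := by
  unfold gB
  rw [Finset.mem_filter]
  simp only [Finset.mem_univ, true_and]
  change (g : ℕ) ∈ (enc c.bit (c.oo e) hp hq σ e c.lo).B k ↔ _
  rw [enc_B, Finset.mem_image]
  constructor
  · rintro ⟨r, hr, h⟩
    rw [Finset.mem_range] at hr
    exact ⟨r, by omega, h.symm⟩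
  · rintro ⟨r, hr, h⟩
    exact ⟨r, Finset.mem_range.2 (by omega), h.symm⟩

theorem gap_lt {k : Fin 3} (g : Fin ((rg (Tc hp hq σ e c)).n k + 1)) :
    g.1 < nc e c.lo false k + 2 * len p q k + nc e c.lo true k + 1 := by
  have h := g.2
  have hn := rg_n hp hq σ e c k
  omega

/-- The places of the surviving gaps. -/
theorem gi_sv (g : Sv (rg (Tc hp hq σ e c)) (gB (Tc hp hq σ e c))) :
    (∃ t < 6, ch p q t = g.1.1 ∧ g.1.2.1 = nc e c.lo false g.1.1 + 2 * (t - off p q g.1.1) + 1 ∧
      gi p q e c g.1.1 g.1.2 = some (Fin.ofNat 8 t)) ∨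
    ∃ b, c.lo b = some g.1.1 ∧ gi p q e c g.1.1 g.1.2 = some (cf b) ∧
      g.1.2.1 = if e b then nc e c.lo false g.1.1 + 2 * len p q g.1.1 + ic e c.lo (c.oo e) b + 1
        else ic e c.lo (c.oo e) b := by
  obtain ⟨⟨k, g⟩, hg⟩ := g
  rcases gi_cases e c (gap_lt hp hq σ e c g) hp hq with ⟨r, h1, h2, -⟩ | h | h
  · exact absurd ((mem_gB hp hq σ e c).2 ⟨r, h1, h2⟩) hg
  · exact Or.inl h
  · exact Or.inr h

/-- The number of a surviving coordinate. -/
def num0 : Sv (rg (Tc hp hq σ e c)) (gB (Tc hp hq σ e c)) ⊕ (rg (Tc hp hq σ e c)).Cm → Fin 8 :=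
  Sum.elim (fun g => (gi p q e c g.1.1 g.1.2).getD 0) fun x => cf x.1.2

/-- The core marks of the region. -/
theorem cm_iff {x : Mk} : ((rg (Tc hp hq σ e c)).pl x).isRight = true ↔
    σ x.2 x.1 = 6 ∧ c.lo x.2 = none := by
  change (pl0 p q e c.lo (σ x.2 x.1) x.2).isRight = true ↔ _
  by_cases hx : (σ x.2 x.1).1 < 6
  · rw [pl0_lt hx]
    simp only [isRight_inl, Bool.false_eq_true, false_iff]
    rintro ⟨h, -⟩
    rw [h] at hx
    exact absurd hx (by decide)
  · have h6 : σ x.2 x.1 = 6 := Fin.ext (by change (σ x.2 x.1).1 = 6; omega)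
    rcases h : c.lo x.2 with _ | k
    · rw [pl0_none hx h]
      simp [h6]
    · rw [pl0_some hx h]
      simp

theorem num0_bij : Function.Bijective (num0 hp hq σ e c) := by
  constructor
  · rintro (g | x) (g' | x') h
    · simp only [num0, Sum.elim_inl] at h
      congr 1
      apply Subtype.ext
      obtain ⟨⟨k, g⟩, hg⟩ := g
      obtain ⟨⟨k', g'⟩, hg'⟩ := g'
      rcases gi_sv hp hq σ e c ⟨⟨k, g⟩, hg⟩ with ⟨t, ht, h1, h2, h3⟩ | ⟨b, h1, h2, h3⟩ <;>
        rcases gi_sv hp hq σ e c ⟨⟨k', g'⟩, hg'⟩ with ⟨t', ht', h1', h2', h3'⟩ | ⟨b', h1', h2', h3'⟩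
      · simp only at h h1 h2 h3 h1' h2' h3'
        rw [h3, h3'] at h
        simp only [Option.getD_some] at h
        have h4 : t = t' := by
          have := congrArg Fin.val h
          rwa [ofNat8 ht, ofNat8 ht'] at this
        subst h4
        have h5 : k = k' := h1.symm.trans h1'
        subst h5
        have h6 : g = g' := Fin.ext (h2.trans h2'.symm)
        subst h6
        rfl
      · simp only at h h1 h2 h3 h1' h2' h3'
        rw [h3, h2'] at h
        simp only [Option.getD_some] at h
        have h4 := congrArg Fin.val h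
        rw [ofNat8 ht] at h4
        have := cf_ge b'
        omega
      · simp only at h h1 h2 h3 h1' h2' h3'
        rw [h2, h3'] at h
        simp only [Option.getD_some] at h
        have h4 := congrArg Fin.val h
        rw [ofNat8 ht'] at h4
        have := cf_ge b
        omega
      · simp only at h h1 h2 h3 h1' h2' h3'
        rw [h2, h2'] at h
        simp only [Option.getD_some] at h
        have h4 := cf_inj h
        subst h4
        have h5 : k = k' := by
          rw [h1] at h1'
          exact Option.some.inj h1'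
        subst h5
        have h6 : g = g' := Fin.ext (h3.trans h3'.symm)
        subst h6
        rfl
    · exfalso
      simp only [num0, Sum.elim_inl, Sum.elim_inr] at h
      have hx := (cm_iff hp hq σ e c).1 x'.2
      rcases gi_sv hp hq σ e c g with ⟨t, ht, h1, h2, h3⟩ | ⟨b, h1, h2, h3⟩
      · rw [h3] at h
        simp only [Option.getD_some] at h
        have h4 := congrArg Fin.val h
        rw [ofNat8 ht] at h4
        have := cf_ge x'.1.2
        omega
      · rw [h2] at h
        simp only [Option.getD_some] at h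
        rw [cf_inj h, hx.2] at h1
        cases h1
    · exfalso
      simp only [num0, Sum.elim_inl, Sum.elim_inr] at h
      have hx := (cm_iff hp hq σ e c).1 x.2
      rcases gi_sv hp hq σ e c g' with ⟨t, ht, h1, h2, h3⟩ | ⟨b, h1, h2, h3⟩
      · rw [h3] at h
        simp only [Option.getD_some] at h
        have h4 := congrArg Fin.val h
        rw [ofNat8 ht] at h4
        have := cf_ge x.1.2
        omega
      · rw [h2] at h
        simp only [Option.getD_some] at h
        rw [← cf_inj h, hx.2] at h1
        cases h1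
    · simp only [num0, Sum.elim_inr] at h
      have hx := (cm_iff hp hq σ e c).1 x.2
      have hx' := (cm_iff hp hq σ e c).1 x'.2
      have h1 : x.1.2 = x'.1.2 := cf_inj h
      congr 1
      apply Subtype.ext
      refine Prod.ext ((σ x.1.2).injective ?_) h1
      rw [hx.1, h1, hx'.1]
  · intro j
    rcases TD.fin8_cases j with hj | hj
    · have h1 := off_le hp hq hj
      have hn := rg_n hp hq σ e c (ch p q j)
      have hg : nc e c.lo false (ch p q j) + 2 * (j - off p q (ch p q j)) + 1 <
          (rg (Tc hp hq σ e c)).n (ch p q j) + 1 := by omega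
      have hB : (⟨ch p q j, ⟨_, hg⟩⟩ : (rg (Tc hp hq σ e c)).Gap) ∉ gB (Tc hp hq σ e c) := by
        rw [mem_gB]
        rintro ⟨r, -, h⟩
        simp only at h
        omega
      refine ⟨inl ⟨_, hB⟩, ?_⟩
      simp only [num0, Sum.elim_inl]
      rw [gi, if_neg (by omega), if_pos (by omega), if_neg (by omega)]
      simp only [Option.getD_some]
      apply Fin.ext
      change (off p q (ch p q j) + _) % 8 = _
      omega
    · obtain ⟨b, rfl⟩ : ∃ b, cf b = j := by
        rcases hj with rfl | rfl
        · exact ⟨true, rfl⟩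
        · exact ⟨false, rfl⟩
      rcases hb : c.lo b with _ | k
      · refine ⟨inr ⟨((σ b).symm 6, b), (cm_iff hp hq σ e c).2 ⟨?_, hb⟩⟩, rfl⟩
        simp
      · have hn := rg_n hp hq σ e c k
        have hic := ic_lt (e := e) (o := c.oo e) hb
        rcases he : e b with _ | _
        · rw [he] at hic
          have hg : ic e c.lo (c.oo e) b < (rg (Tc hp hq σ e c)).n k + 1 := by omega
          have hB : (⟨k, ⟨_, hg⟩⟩ : (rg (Tc hp hq σ e c)).Gap) ∉ gB (Tc hp hq σ e c) := by
            rw [mem_gB]
            rintro ⟨r, -, h⟩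
            simp only at h
            omega
          refine ⟨inl ⟨_, hB⟩, ?_⟩
          simp only [num0, Sum.elim_inl]
          rw [gi, if_pos hic, cb_eq e c hb he rfl]
          rfl
        · rw [he] at hic
          have hg : nc e c.lo false k + 2 * len p q k + ic e c.lo (c.oo e) b + 1 <
            (rg (Tc hp hq σ e c)).n k + 1 := by omega
          have hB : (⟨k, ⟨_, hg⟩⟩ : (rg (Tc hp hq σ e c)).Gap) ∉ gB (Tc hp hq σ e c) := by
            rw [mem_gB]
            rintro ⟨r, hr, h⟩
            simp only at h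
            omega
          refine ⟨inl ⟨_, hB⟩, ?_⟩
          simp only [num0, Sum.elim_inl]
          rw [gi, if_neg (by omega), if_neg (by omega)]
          have h4 : nc e c.lo false k + 2 * len p q k + ic e c.lo (c.oo e) b + 1 -
            nc e c.lo false k - 2 * len p q k - 1 = ic e c.lo (c.oo e) b := by omega
          rw [h4, cb_eq e c hb he rfl]
          rfl

/-- The numbering of the surviving coordinates. -/
def num : Sv (rg (Tc hp hq σ e c)) (gB (Tc hp hq σ e c)) ⊕ (rg (Tc hp hq σ e c)).Cm ≃ Fin 8 :=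
  Equiv.ofBijective _ (num0_bij hp hq σ e c)

theorem num_inr (x : (rg (Tc hp hq σ e c)).Cm) : num hp hq σ e c (inr x) = cf x.1.2 := rfl

theorem num_inl (g : Sv (rg (Tc hp hq σ e c)) (gB (Tc hp hq σ e c))) :
    gi p q e c g.1.1 g.1.2 = some (num hp hq σ e c (inl g)) := by
  have h : num hp hq σ e c (inl g) = (gi p q e c g.1.1 g.1.2).getD 0 := rfl
  rw [h]
  rcases gi_sv hp hq σ e c g with ⟨t, ht, h1, h2, h3⟩ | ⟨b, h1, h2, h3⟩
  · rw [h3]; rfl
  · rw [h2]; rfl

end Vale.Agent.P273.H92

end
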