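import Vale.Agent.P273.H92.Pairs
import Vale.Agent.P273.H92.CellIdx
import Vale.Agent.P273.H573.Skel

/-!
# P273, LIM-V: the pieces of 573 are the integrals over the cells of 728
-/

noncomputable section

namespace Vale.Agent.P273.H92

open Set MeasureTheory Sum H95 H573 H728

section abstract

variable {R : Region} {B : Finset R.Gap} (ρ : Sv R B ⊕ R.Cm ≃ Fin 8)

/-- The surviving coordinates in a numbering. -/
def jE : (Fin 8 → ℂ) ≃ᵐ (Sv R B → ℂ) × (R.Cm → ℂ) :=
  (MeasurableEquiv.piCongrLeft (fun _ : Fin 8 => ℂ) ρ).symm.trans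
    (MeasurableEquiv.sumPiEquivProdPi fun _ => ℂ)

theorem jE_apply (ζ : Fin 8 → ℂ) : jE ρ ζ = (fun g => ζ (ρ (inl g)), fun c => ζ (ρ (inr c))) := rfl

theorem mp_jE : MeasurePreserving (jE ρ) volume volume :=
  (volume_measurePreserving_sumPiEquivProdPi fun _ : Sv R B ⊕ R.Cm => ℂ).comp
    (volume_measurePreserving_piCongrLeft (fun _ : Fin 8 => ℂ) ρ).symm

theorem jE_single (j : Fin 8) (b : Bool) :
    jE ρ (Pi.single j (if b then Complex.I else 1)) = bS R B (ρ.symm j) b := by
  rw [jE_apply]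
  rcases h : ρ.symm j with g | g
  · have hj : j = ρ (inl g) := by rw [← h, Equiv.apply_symm_apply]
    subst hj
    refine Prod.ext (funext fun g' => ?_) (funext fun c => ?_)
    · by_cases hg : g' = g
      · subst hg
        simp [bS]
      · have : ρ (inl g') ≠ ρ (inl g) := fun h' => hg (Sum.inl_injective (ρ.injective h'))
        simp [bS, Pi.single_eq_of_ne this, Pi.single_eq_of_ne hg]
    · have : ρ (inr c) ≠ ρ (inl g) := fun h' => by cases ρ.injective h'
      simp [bS]
  · have hj : j = ρ (inr g) := by rw [← h, Equiv.apply_symm_apply]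
    subst hj
    refine Prod.ext (funext fun g' => ?_) (funext fun c => ?_)
    · have : ρ (inl g') ≠ ρ (inr g) := fun h' => by cases ρ.injective h'
      simp [bS]
    · by_cases hg : c = g
      · subst hg
        simp [bS]
      · have : ρ (inr c) ≠ ρ (inr g) := fun h' => hg (Sum.inr_injective (ρ.injective h'))
        simp [bS, Pi.single_eq_of_ne this, Pi.single_eq_of_ne hg]

/-- The domain of a piece. -/
def pdom (R : Region) (B : Finset R.Gap) (far : R.Cm → Bool) : Set ((Sv R B → ℂ) × (R.Cm → ℂ)) :=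
  {x | (∀ g, ‖x.1 g‖ < 1) ∧ ∀ c, x.2 c ∈ zone0 (far c)}

/-- The integrand of a piece in a numbering. -/
def pint (X : Ext) (S : L → Bool) (ζ : Fin 8 → ℂ) : ℝ :=
  X.H R S (embS R B (jE ρ ζ)) fun a : Fin (8 * 2) => embS R B (jE ρ (H728.fr a))

omit ρ in
theorem fr8 (a : Fin (8 * 2)) : H728.fr (m := 8) a = Pi.single a.divNat
    (if (decide ((a : ℕ) % 2 = 1)) then Complex.I else 1) := by
  unfold H728.fr
  congr 1
  have h3 : a.modNat = 0 ∨ a.modNat = 1 := by
    generalize a.modNat = s
    fin_cases s <;> simp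
  have h4 : (a.modNat : ℕ) = (a : ℕ) % 2 := rfl
  rcases h3 with h3 | h3
  · rw [h3] at h4
    rw [if_pos h3, if_neg]
    simp only [decide_eq_true_eq, ← h4]
    decide
  · rw [h3] at h4
    rw [if_neg (by rw [h3]; decide), if_pos]
    simp only [decide_eq_true_eq, ← h4]
    decide

theorem piece_eq (X : Ext) (far : R.Cm → Bool) :
    piece R X far B = ∫ ζ in jE ρ ⁻¹' pdom R B far, pint ρ X (Sx R far) ζ := by
  classical
  have h : Fintype.card (Sv R B ⊕ R.Cm) = 8 := by
    rw [Fintype.card_congr ρ, Fintype.card_fin]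
  unfold piece
  rw [dif_pos (by convert h)]
  rw [← (mp_jE ρ).setIntegral_preimage_emb (jE ρ).measurableEmbedding]
  refine integral_congr_ae (Filter.Eventually.of_forall fun ζ => ?_)
  set θ : Sv R B ⊕ R.Cm ≃ Fin 8 := Fintype.equivFinOfCardEq (by convert h) with hθ
  have h1 := alt_pairs16 (M := R.Sp) (N := ℝ) (X.H R (Sx R far) (embS R B (jE ρ ζ))).toAlternatingMap
    (fun j b => embS R B (bS R B (ρ.symm j) b)) (θ.symm.trans ρ)
  simp only [Equiv.trans_apply, Equiv.symm_apply_apply] at h1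
  refine Eq.trans h1 ?_
  have h5 : (fun i : Fin 16 => embS R B (bS R B (ρ.symm ⟨i / 2, by omega⟩)
      (decide ((i : ℕ) % 2 = 1)))) = fun a : Fin (8 * 2) => embS R B (jE ρ (H728.fr a)) := by
    funext a
    rw [fr8, jE_single]
    rfl
  rw [h5]
  rfl

end abstract

end Vale.Agent.P273.H92

end
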