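import Vale.Agent.P273.H92.Polar

/-!
# P273, LIM-V: the logarithmic polar coordinates in some of the variables, and for forms
-/

noncomputable section

namespace Vale.Agent.P273.H92

open Set MeasureTheory

variable {ι : Type} [Fintype ι] (P : ι → Prop) [DecidablePred P]

/-- The coordinates with `P` are `exp (-u + i φ)`, the others are `s`. -/
def lpi (p : ({i // P i} → ℝ) × ({i // P i} → ℝ) × ({i // ¬ P i} → ℂ)) (i : ι) : ℂ :=
  if h : P i then Complex.exp (-(p.1 ⟨i, h⟩ : ℂ) + (p.2.1 ⟨i, h⟩ : ℂ) * Complex.I) else p.2.2 ⟨i, h⟩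

omit [Fintype ι] in
theorem lpi_eq (p : ({i // P i} → ℝ) × ({i // P i} → ℝ) × ({i // ¬ P i} → ℂ)) :
    lpi P p = (MeasurableEquiv.piEquivPiSubtypeProd (fun _ : ι => ℂ) P).symm (lp p) := by
  funext i
  by_cases h : P i
  · simp [lpi, lp, h, MeasurableEquiv.piEquivPiSubtypeProd, Equiv.piEquivPiSubtypeProd]
  · simp [lpi, lp, h, MeasurableEquiv.piEquivPiSubtypeProd, Equiv.piEquivPiSubtypeProd]

/-- **The logarithmic polar coordinates** in the variables with `P`, for an arbitrary function. -/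
theorem polar_pi {F : Type} [NormedAddCommGroup F] [NormedSpace ℝ F] {S : Set (ι → ℂ)}
    (hS : MeasurableSet S) (h : (ι → ℂ) → F) :
    (IntegrableOn h S ↔ IntegrableOn
      (fun p : ({i // P i} → ℝ) × ({i // P i} → ℝ) × ({i // ¬ P i} → ℂ) =>
        (∏ g, Real.exp (-2 * p.1 g)) • h (lpi P p))
      {p | (∀ g, p.2.1 g ∈ Ioo (-Real.pi) Real.pi) ∧ lpi P p ∈ S}) ∧
    ∫ q in S, h q = ∫ p in {p : ({i // P i} → ℝ) × ({i // P i} → ℝ) × ({i // ¬ P i} → ℂ) |
      (∀ g, p.2.1 g ∈ Ioo (-Real.pi) Real.pi) ∧ lpi P p ∈ S},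
      (∏ g, Real.exp (-2 * p.1 g)) • h (lpi P p) := by
  set e := MeasurableEquiv.piEquivPiSubtypeProd (fun _ : ι => ℂ) P with he
  have hp : MeasurePreserving e.symm volume volume :=
    (volume_preserving_piEquivPiSubtypeProd (fun _ : ι => ℂ) P).symm
  have h1 := polar (hp.measurable hS) (fun q => h (e.symm q))
  simp only [lpi_eq]
  rw [← he]
  constructor
  · rw [← hp.integrableOn_comp_preimage e.symm.measurableEmbedding]
    exact h1.1
  · rw [← hp.setIntegral_preimage_emb e.symm.measurableEmbedding]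
    exact h1.2

end Vale.Agent.P273.H92

end
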