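import Vale.Agent.P273.H92.Cov

/-!
# P273, LIM-V: the zones of a mark on a core

Three closed discs `|x - ct k| ≤ lam * r`, disjoint and contained in `|x| < R0`. A mark on the core is
in a disc (`inl k`, `x = ct k + lam * z`, `|z| < r`), in the near zone (`inr false`, `x = z`) or in the
far zone (`inr true`, `x = 1 / z`, `|z| < 1 / R0`).
-/

noncomputable section

namespace Vale.Agent.P273.H92

open Set MeasureTheory Sum

/-- The discs. -/
structure Dat where
  /-- The centres. -/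
  ct : Fin 3 → ℂ
  /-- The scale. -/
  lam : ℝ
  /-- The radius of the coordinate. -/
  r : ℝ
  /-- The radius of the near zone. -/
  R0 : ℝ
  lam_pos : 0 < lam
  r_pos : 0 < r
  far : ∀ k l, k ≠ l → 2 * (lam * r) < ‖ct k - ct l‖
  near : ∀ k, ‖ct k‖ + lam * r < R0

/-- Zones of a mark on a core: a disc, near, far. -/
abbrev Zone := Fin 3 ⊕ Bool

namespace Dat

variable (D : Dat)

theorem R0_pos : 0 < D.R0 :=
  lt_of_le_of_lt (add_nonneg (norm_nonneg _) (mul_nonneg D.lam_pos.le D.r_pos.le)) (D.near 0)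

theorem ct_inj {k l : Fin 3} (h : D.ct k = D.ct l) : k = l := by
  by_contra hkl
  have h1 := D.far k l hkl
  rw [h, sub_self, norm_zero] at h1
  have := mul_pos D.lam_pos D.r_pos
  linarith

/-- The domain of the coordinate. -/
def om : Zone → Set ℂ
  | inl _ => {z | z ≠ 0 ∧ ‖z‖ < D.r}
  | inr false => {z | ‖z‖ < D.R0 ∧ ∀ k, D.lam * D.r < ‖z - D.ct k‖}
  | inr true => {z | z ≠ 0 ∧ ‖z‖ < D.R0⁻¹}

/-- The position of the mark. -/
def pos : Zone → ℂ → ℂ
  | inl k, z => D.ct k + D.lam * z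
  | inr false, z => z
  | inr true, z => z⁻¹

/-- The derivative of the position. -/
def dps : Zone → ℂ → ℂ
  | inl _, _ => D.lam
  | inr false, _ => 1
  | inr true, z => -(z ^ 2)⁻¹

theorem isOpen_om (z : Zone) : IsOpen (D.om z) := by
  rcases z with k | _ | _
  · exact isOpen_ne.inter (isOpen_lt continuous_norm continuous_const)
  · refine (isOpen_lt continuous_norm continuous_const).inter ?_
    have h : {z : ℂ | ∀ k, D.lam * D.r < ‖z - D.ct k‖} = ⋂ k, {z | D.lam * D.r < ‖z - D.ct k‖} := by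
      ext z; simp
    change IsOpen {z : ℂ | ∀ k, D.lam * D.r < ‖z - D.ct k‖}
    rw [h]
    exact isOpen_iInter_of_finite fun k =>
      isOpen_lt continuous_const (continuous_id.sub continuous_const).norm
  · exact isOpen_ne.inter (isOpen_lt continuous_norm continuous_const)

theorem hasDerivAt_pos (z : Zone) {x : ℂ} (hx : x ∈ D.om z) :
    HasDerivAt (D.pos z) (D.dps z x) x := by
  rcases z with k | _ | _
  · have := ((hasDerivAt_id x).const_mul (D.lam : ℂ)).const_add (D.ct k)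
    rw [mul_one] at this
    exact this
  · exact hasDerivAt_id x
  · exact hasDerivAt_inv hx.1

theorem dist_disc {k : Fin 3} {x : ℂ} (hx : x ∈ D.om (inl k)) :
    ‖D.pos (inl k) x - D.ct k‖ < D.lam * D.r := by
  change ‖D.ct k + D.lam * x - D.ct k‖ < _
  rw [add_sub_cancel_left, norm_mul, Complex.norm_real, Real.norm_of_nonneg D.lam_pos.le]
  exact mul_lt_mul_of_pos_left hx.2 D.lam_pos

theorem dist_other {k l : Fin 3} (hkl : k ≠ l) {y : ℂ} (hy : ‖y - D.ct k‖ ≤ D.lam * D.r) :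
    D.lam * D.r < ‖y - D.ct l‖ := by
  have h1 := D.far k l hkl
  have h2 : ‖D.ct k - D.ct l‖ ≤ ‖y - D.ct k‖ + ‖y - D.ct l‖ := by
    have : D.ct k - D.ct l = -(y - D.ct k) + (y - D.ct l) := by ring
    rw [this]
    exact (norm_add_le _ _).trans (by rw [norm_neg])
  linarith

theorem norm_disc {k : Fin 3} {y : ℂ} (hy : ‖y - D.ct k‖ ≤ D.lam * D.r) : ‖y‖ < D.R0 := by
  have h1 := D.near k
  have h2 : ‖y‖ ≤ ‖y - D.ct k‖ + ‖D.ct k‖ := by
    calc ‖y‖ = ‖(y - D.ct k) + D.ct k‖ := by ring_nf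
      _ ≤ _ := norm_add_le _ _
  linarith

theorem norm_far {x : ℂ} (hx : x ∈ D.om (inr true)) : D.R0 < ‖D.pos (inr true) x‖ := by
  change D.R0 < ‖x⁻¹‖
  rw [norm_inv]
  exact (lt_inv_comm₀ (norm_pos_iff.2 hx.1) D.R0_pos).1 hx.2

theorem dist_far {x : ℂ} (hx : x ∈ D.om (inr true)) (k : Fin 3) :
    D.lam * D.r < ‖D.pos (inr true) x - D.ct k‖ := by
  by_contra h
  exact absurd (D.norm_disc (not_lt.1 h)) (not_lt.2 (D.norm_far hx).le)

theorem pos_ne (z : Zone) {x : ℂ} (hx : x ∈ D.om z) (k : Fin 3) : D.pos z x ≠ D.ct k := by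
  have h0 := mul_pos D.lam_pos D.r_pos
  rcases z with l | _ | _
  · intro h
    by_cases hkl : l = k
    · subst hkl
      have h1 : D.ct l + D.lam * x = D.ct l := h
      rcases mul_eq_zero.1 (add_eq_left.1 h1) with h2 | h2
      · exact D.lam_pos.ne' (by exact_mod_cast h2)
      · exact hx.1 h2
    · have := D.dist_other hkl (D.dist_disc hx).le
      rw [h, sub_self, norm_zero] at this
      linarith
  · intro h
    have := hx.2 k
    rw [show x = D.ct k from h, sub_self, norm_zero] at this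
    linarith
  · intro h
    have := D.dist_far hx k
    rw [h, sub_self, norm_zero] at this
    linarith

theorem pos_inj (z : Zone) : InjOn (D.pos z) (D.om z) := by
  intro x hx y hy hxy
  rcases z with l | _ | _
  · have h1 : D.ct l + D.lam * x = D.ct l + D.lam * y := hxy
    have h2 := add_left_cancel h1
    exact mul_left_cancel₀ (by exact_mod_cast D.lam_pos.ne') h2
  · exact hxy
  · exact inv_injective hxy

theorem pos_disj {z z' : Zone} (h : z ≠ z') {x y : ℂ} (hx : x ∈ D.om z) (hy : y ∈ D.om z') :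
    D.pos z x ≠ D.pos z' y := by
  intro hxy
  rcases z with k | _ | _ <;> rcases z' with l | _ | _
  · have hkl : k ≠ l := fun hkl => h (by rw [hkl])
    have h1 := D.dist_other hkl (D.dist_disc hx).le
    rw [hxy] at h1
    exact absurd (D.dist_disc hy) (not_lt.2 h1.le)
  · have h1 := D.dist_disc hx
    rw [hxy] at h1
    exact absurd (hy.2 k) (not_lt.2 h1.le)
  · have h1 := D.dist_disc hx
    rw [hxy] at h1
    exact absurd (D.dist_far hy k) (not_lt.2 h1.le)
  · have h1 := D.dist_disc hy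
    rw [← hxy] at h1
    exact absurd (hx.2 l) (not_lt.2 h1.le)
  · exact h rfl
  · have h1 := D.norm_far hy
    rw [← hxy] at h1
    exact absurd hx.1 (not_lt.2 h1.le)
  · have h1 := D.dist_disc hy
    rw [← hxy] at h1
    exact absurd (D.dist_far hx l) (not_lt.2 h1.le)
  · have h1 := D.norm_far hx
    rw [hxy] at h1
    exact absurd hy.1 (not_lt.2 h1.le)
  · exact h rfl

theorem pos_cover {x : ℂ} (h1 : ∀ k, x ≠ D.ct k) (h2 : ∀ k, ‖x - D.ct k‖ ≠ D.lam * D.r)
    (h3 : ‖x‖ ≠ D.R0) : ∃ z, ∃ y ∈ D.om z, D.pos z y = x := by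
  by_cases h : ∃ k, ‖x - D.ct k‖ < D.lam * D.r
  · obtain ⟨k, hk⟩ := h
    have hl : (D.lam : ℂ) ≠ 0 := by exact_mod_cast D.lam_pos.ne'
    refine ⟨inl k, (x - D.ct k) / D.lam, ⟨?_, ?_⟩, ?_⟩
    · exact div_ne_zero (sub_ne_zero.2 (h1 k)) hl
    · rw [norm_div, Complex.norm_real, Real.norm_of_nonneg D.lam_pos.le, div_lt_iff₀ D.lam_pos,
        mul_comm]
      exact hk
    · change D.ct k + D.lam * ((x - D.ct k) / D.lam) = x
      rw [mul_div_cancel₀ _ hl, add_sub_cancel]
  · push Not at h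
    rcases lt_or_gt_of_ne h3 with h4 | h4
    · exact ⟨inr false, x, ⟨h4, fun k => lt_of_le_of_ne (h k) (h2 k).symm⟩, rfl⟩
    · have hx : x ≠ 0 := norm_pos_iff.1 (D.R0_pos.trans h4)
      refine ⟨inr true, x⁻¹, ⟨inv_ne_zero hx, ?_⟩, inv_inv x⟩
      rw [norm_inv]
      exact inv_strictAnti₀ D.R0_pos h4

end Dat

end Vale.Agent.P273.H92

end
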